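import Vale.Agent.Snaky.P3.Tbl

namespace Vale.Agent.Snaky.P3

theorem ck0 : checkRange tbl 0 26 = 0 := by decide +kernel
theorem ck1 : checkRange tbl 26 24 = 0 := by decide +kernel
theorem ck2 : checkRange tbl 50 16 = 0 := by decide +kernel
theorem ck3 : checkRange tbl 66 17 = 0 := by decide +kernel
theorem ck4 : checkRange tbl 83 15 = 0 := by decide +kernel
theorem ck5 : checkRange tbl 98 16 = 0 := by decide +kernel
theorem ck6 : checkRange tbl 114 15 = 0 := by decide +kernel
theorem ck7 : checkRange tbl 129 15 = 0 := by decide +kernel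
theorem ck8 : checkRange tbl 144 15 = 0 := by decide +kernel
theorem ck9 : checkRange tbl 159 15 = 0 := by decide +kernel
theorem ck10 : checkRange tbl 174 15 = 0 := by decide +kernel
theorem ck11 : checkRange tbl 189 15 = 0 := by decide +kernel
theorem ck12 : checkRange tbl 204 15 = 0 := by decide +kernel
theorem ck13 : checkRange tbl 219 15 = 0 := by decide +kernel
theorem ck14 : checkRange tbl 234 15 = 0 := by decide +kernel
theorem ck15 : checkRange tbl 249 16 = 0 := by decide +kernel
theorem ck16 : checkRange tbl 265 21 = 0 := by decide +kernel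
theorem ck17 : checkRange tbl 286 19 = 0 := by decide +kernel
theorem ck18 : checkRange tbl 305 20 = 0 := by decide +kernel
theorem ck19 : checkRange tbl 325 20 = 0 := by decide +kernel
theorem ck20 : checkRange tbl 345 19 = 0 := by decide +kernel
theorem ck21 : checkRange tbl 364 20 = 0 := by decide +kernel
theorem ck22 : checkRange tbl 384 20 = 0 := by decide +kernel
theorem ck23 : checkRange tbl 404 20 = 0 := by decide +kernel
theorem ck24 : checkRange tbl 424 20 = 0 := by decide +kernel
theorem ck25 : checkRange tbl 444 19 = 0 := by decide +kernel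
theorem ck26 : checkRange tbl 463 20 = 0 := by decide +kernel
theorem ck27 : checkRange tbl 483 20 = 0 := by decide +kernel
theorem ck28 : checkRange tbl 503 20 = 0 := by decide +kernel
theorem ck29 : checkRange tbl 523 20 = 0 := by decide +kernel
theorem ck30 : checkRange tbl 543 21 = 0 := by decide +kernel
theorem ck31 : checkRange tbl 564 20 = 0 := by decide +kernel
theorem ck32 : checkRange tbl 584 20 = 0 := by decide +kernel
theorem ck33 : checkRange tbl 604 21 = 0 := by decide +kernel
theorem ck34 : checkRange tbl 625 21 = 0 := by decide +kernel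
theorem ck35 : checkRange tbl 646 22 = 0 := by decide +kernel
theorem ck36 : checkRange tbl 668 24 = 0 := by decide +kernel
theorem ck37 : checkRange tbl 692 21 = 0 := by decide +kernel
theorem ck38 : checkRange tbl 713 22 = 0 := by decide +kernel
theorem ck39 : checkRange tbl 735 21 = 0 := by decide +kernel
theorem ck40 : checkRange tbl 756 24 = 0 := by decide +kernel
theorem ck41 : checkRange tbl 780 22 = 0 := by decide +kernel
theorem ck42 : checkRange tbl 802 24 = 0 := by decide +kernel
theorem ck43 : checkRange tbl 826 24 = 0 := by decide +kernel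
theorem ck44 : checkRange tbl 850 24 = 0 := by decide +kernel
theorem ck45 : checkRange tbl 874 26 = 0 := by decide +kernel
theorem ck46 : checkRange tbl 900 17 = 0 := by decide +kernel
theorem ck47 : checkRange tbl 917 18 = 0 := by decide +kernel
theorem ck48 : checkRange tbl 935 18 = 0 := by decide +kernel
theorem ck49 : checkRange tbl 953 19 = 0 := by decide +kernel
theorem ck50 : checkRange tbl 972 18 = 0 := by decide +kernel
theorem ck51 : checkRange tbl 990 19 = 0 := by decide +kernel
theorem ck52 : checkRange tbl 1009 18 = 0 := by decide +kernel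
theorem ck53 : checkRange tbl 1027 19 = 0 := by decide +kernel
theorem ck54 : checkRange tbl 1046 18 = 0 := by decide +kernel
theorem ck55 : checkRange tbl 1064 18 = 0 := by decide +kernel
theorem ck56 : checkRange tbl 1082 19 = 0 := by decide +kernel
theorem ck57 : checkRange tbl 1101 18 = 0 := by decide +kernel
theorem ck58 : checkRange tbl 1119 18 = 0 := by decide +kernel
theorem ck59 : checkRange tbl 1137 18 = 0 := by decide +kernel
theorem ck60 : checkRange tbl 1155 19 = 0 := by decide +kernel
theorem ck61 : checkRange tbl 1174 19 = 0 := by decide +kernel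
theorem ck62 : checkRange tbl 1193 19 = 0 := by decide +kernel
theorem ck63 : checkRange tbl 1212 19 = 0 := by decide +kernel

theorem rng0 : RangeOK tbl 0 1231 := RangeOK.join (RangeOK.join (RangeOK.join (RangeOK.join (RangeOK.join (RangeOK.join (RangeOK.of_check ck0) (RangeOK.of_check ck1) (Eq.refl 26)) (RangeOK.join (RangeOK.of_check ck2) (RangeOK.of_check ck3) (Eq.refl 66)) (Eq.refl 50)) (RangeOK.join (RangeOK.join (RangeOK.of_check ck4) (RangeOK.of_check ck5) (Eq.refl 98)) (RangeOK.join (RangeOK.of_check ck6) (RangeOK.of_check ck7) (Eq.refl 129)) (Eq.refl 114)) (Eq.refl 83)) (RangeOK.join (RangeOK.join (RangeOK.join (RangeOK.of_check ck8) (RangeOK.of_check ck9) (Eq.refl 159)) (RangeOK.join (RangeOK.of_check ck10) (RangeOK.of_check ck11) (Eq.refl 189)) (Eq.refl 174)) (RangeOK.join (RangeOK.join (RangeOK.of_check ck12) (RangeOK.of_check ck13) (Eq.refl 219)) (RangeOK.join (RangeOK.of_check ck14) (RangeOK.of_check ck15) (Eq.refl 249)) (Eq.refl 234)) (Eq.refl 204)) (Eq.refl 144)) (RangeOK.join (RangeOK.join (RangeOK.join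 (RangeOK.join (RangeOK.of_check ck16) (RangeOK.of_check ck17) (Eq.refl 286)) (RangeOK.join (RangeOK.of_check ck18) (RangeOK.of_check ck19) (Eq.refl 325)) (Eq.refl 305)) (RangeOK.join (RangeOK.join (RangeOK.of_check ck20) (RangeOK.of_check ck21) (Eq.refl 364)) (RangeOK.join (RangeOK.of_check ck22) (RangeOK.of_check ck23) (Eq.refl 404)) (Eq.refl 384)) (Eq.refl 345)) (RangeOK.join (RangeOK.join (RangeOK.join (RangeOK.of_check ck24) (RangeOK.of_check ck25) (Eq.refl 444)) (RangeOK.join (RangeOK.of_check ck26) (RangeOK.of_check ck27) (Eq.refl 483)) (Eq.refl 463)) (RangeOK.join (RangeOK.join (RangeOK.of_check ck28) (RangeOK.of_check ck29) (Eq.refl 523)) (RangeOK.join (RangeOK.of_check ck30) (RangeOK.of_check ck31) (Eq.refl 564)) (Eq.refl 543)) (Eq.refl 503)) (Eq.refl 424)) (Eq.refl 265)) (RangeOK.join (RangeOK.join (RangeOK.join (RangeOK.join (RangeOK.join (RangeOK.of_check ck32) (RangeOK.of_check ck33) (Eq.refl 604)) (RangeOK.join (RangeOK.of_check ck34) (RangeOK.of_check ck35) (Eq.refl 646)) (Eq.refl 625)) (RangeOK.join (RangeOK.join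 (RangeOK.of_check ck36) (RangeOK.of_check ck37) (Eq.refl 692)) (RangeOK.join (RangeOK.of_check ck38) (RangeOK.of_check ck39) (Eq.refl 735)) (Eq.refl 713)) (Eq.refl 668)) (RangeOK.join (RangeOK.join (RangeOK.join (RangeOK.of_check ck40) (RangeOK.of_check ck41) (Eq.refl 780)) (RangeOK.join (RangeOK.of_check ck42) (RangeOK.of_check ck43) (Eq.refl 826)) (Eq.refl 802)) (RangeOK.join (RangeOK.join (RangeOK.of_check ck44) (RangeOK.of_check ck45) (Eq.refl 874)) (RangeOK.join (RangeOK.of_check ck46) (RangeOK.of_check ck47) (Eq.refl 917)) (Eq.refl 900)) (Eq.refl 850)) (Eq.refl 756)) (RangeOK.join (RangeOK.join (RangeOK.join (RangeOK.join (RangeOK.of_check ck48) (RangeOK.of_check ck49) (Eq.refl 953)) (RangeOK.join (RangeOK.of_check ck50) (RangeOK.of_check ck51) (Eq.refl 990)) (Eq.refl 972)) (RangeOK.join (RangeOK.join (RangeOK.of_check ck52) (RangeOK.of_check ck53) (Eq.refl 1027)) (RangeOK.join (RangeOK.of_check ck54) (RangeOK.of_check ck55) (Eq.refl 1064)) (Eq.refl 1046)) (Eq.refl 1009)) (RangeOK.join (RangeOK.join (RangeOK.join (RangeOK.of_check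 ck56) (RangeOK.of_check ck57) (Eq.refl 1101)) (RangeOK.join (RangeOK.of_check ck58) (RangeOK.of_check ck59) (Eq.refl 1137)) (Eq.refl 1119)) (RangeOK.join (RangeOK.join (RangeOK.of_check ck60) (RangeOK.of_check ck61) (Eq.refl 1174)) (RangeOK.join (RangeOK.of_check ck62) (RangeOK.of_check ck63) (Eq.refl 1212)) (Eq.refl 1193)) (Eq.refl 1155)) (Eq.refl 1082)) (Eq.refl 935)) (Eq.refl 584)

end Vale.Agent.Snaky.P3
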