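import Vale.Agent.Snaky.P3.Tbl

namespace Vale.Agent.Snaky.P3

theorem ck64 : checkRange tbl 1231 19 = 0 := by decide +kernel
theorem ck65 : checkRange tbl 1250 19 = 0 := by decide +kernel
theorem ck66 : checkRange tbl 1269 19 = 0 := by decide +kernel
theorem ck67 : checkRange tbl 1288 20 = 0 := by decide +kernel
theorem ck68 : checkRange tbl 1308 19 = 0 := by decide +kernel
theorem ck69 : checkRange tbl 1327 18 = 0 := by decide +kernel
theorem ck70 : checkRange tbl 1345 18 = 0 := by decide +kernel
theorem ck71 : checkRange tbl 1363 19 = 0 := by decide +kernel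
theorem ck72 : checkRange tbl 1382 18 = 0 := by decide +kernel
theorem ck73 : checkRange tbl 1400 19 = 0 := by decide +kernel
theorem ck74 : checkRange tbl 1419 19 = 0 := by decide +kernel
theorem ck75 : checkRange tbl 1438 19 = 0 := by decide +kernel
theorem ck76 : checkRange tbl 1457 19 = 0 := by decide +kernel
theorem ck77 : checkRange tbl 1476 19 = 0 := by decide +kernel
theorem ck78 : checkRange tbl 1495 18 = 0 := by decide +kernel
theorem ck79 : checkRange tbl 1513 19 = 0 := by decide +kernel
theorem ck80 : checkRange tbl 1532 20 = 0 := by decide +kernel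
theorem ck81 : checkRange tbl 1552 20 = 0 := by decide +kernel
theorem ck82 : checkRange tbl 1572 19 = 0 := by decide +kernel
theorem ck83 : checkRange tbl 1591 19 = 0 := by decide +kernel
theorem ck84 : checkRange tbl 1610 18 = 0 := by decide +kernel
theorem ck85 : checkRange tbl 1628 18 = 0 := by decide +kernel
theorem ck86 : checkRange tbl 1646 19 = 0 := by decide +kernel
theorem ck87 : checkRange tbl 1665 19 = 0 := by decide +kernel
theorem ck88 : checkRange tbl 1684 18 = 0 := by decide +kernel
theorem ck89 : checkRange tbl 1702 17 = 0 := by decide +kernel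
theorem ck90 : checkRange tbl 1719 17 = 0 := by decide +kernel
theorem ck91 : checkRange tbl 1736 19 = 0 := by decide +kernel
theorem ck92 : checkRange tbl 1755 18 = 0 := by decide +kernel
theorem ck93 : checkRange tbl 1773 18 = 0 := by decide +kernel
theorem ck94 : checkRange tbl 1791 18 = 0 := by decide +kernel
theorem ck95 : checkRange tbl 1809 17 = 0 := by decide +kernel
theorem ck96 : checkRange tbl 1826 18 = 0 := by decide +kernel
theorem ck97 : checkRange tbl 1844 20 = 0 := by decide +kernel
theorem ck98 : checkRange tbl 1864 18 = 0 := by decide +kernel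
theorem ck99 : checkRange tbl 1882 18 = 0 := by decide +kernel
theorem ck100 : checkRange tbl 1900 18 = 0 := by decide +kernel
theorem ck101 : checkRange tbl 1918 17 = 0 := by decide +kernel
theorem ck102 : checkRange tbl 1935 17 = 0 := by decide +kernel
theorem ck103 : checkRange tbl 1952 18 = 0 := by decide +kernel
theorem ck104 : checkRange tbl 1970 17 = 0 := by decide +kernel
theorem ck105 : checkRange tbl 1987 20 = 0 := by decide +kernel
theorem ck106 : checkRange tbl 2007 19 = 0 := by decide +kernel
theorem ck107 : checkRange tbl 2026 19 = 0 := by decide +kernel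
theorem ck108 : checkRange tbl 2045 19 = 0 := by decide +kernel
theorem ck109 : checkRange tbl 2064 17 = 0 := by decide +kernel
theorem ck110 : checkRange tbl 2081 17 = 0 := by decide +kernel
theorem ck111 : checkRange tbl 2098 21 = 0 := by decide +kernel
theorem ck112 : checkRange tbl 2119 19 = 0 := by decide +kernel
theorem ck113 : checkRange tbl 2138 18 = 0 := by decide +kernel
theorem ck114 : checkRange tbl 2156 20 = 0 := by decide +kernel
theorem ck115 : checkRange tbl 2176 20 = 0 := by decide +kernel
theorem ck116 : checkRange tbl 2196 18 = 0 := by decide +kernel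
theorem ck117 : checkRange tbl 2214 19 = 0 := by decide +kernel
theorem ck118 : checkRange tbl 2233 18 = 0 := by decide +kernel
theorem ck119 : checkRange tbl 2251 22 = 0 := by decide +kernel
theorem ck120 : checkRange tbl 2273 21 = 0 := by decide +kernel
theorem ck121 : checkRange tbl 2294 20 = 0 := by decide +kernel
theorem ck122 : checkRange tbl 2314 23 = 0 := by decide +kernel
theorem ck123 : checkRange tbl 2337 21 = 0 := by decide +kernel
theorem ck124 : checkRange tbl 2358 25 = 0 := by decide +kernel
theorem ck125 : checkRange tbl 2383 24 = 0 := by decide +kernel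
theorem ck126 : checkRange tbl 2407 20 = 0 := by decide +kernel
theorem ck127 : checkRange tbl 2427 24 = 0 := by decide +kernel

theorem rng1 : RangeOK tbl 1231 1220 := RangeOK.join (RangeOK.join (RangeOK.join (RangeOK.join (RangeOK.join (RangeOK.join (RangeOK.of_check ck64) (RangeOK.of_check ck65) (Eq.refl 1250)) (RangeOK.join (RangeOK.of_check ck66) (RangeOK.of_check ck67) (Eq.refl 1288)) (Eq.refl 1269)) (RangeOK.join (RangeOK.join (RangeOK.of_check ck68) (RangeOK.of_check ck69) (Eq.refl 1327)) (RangeOK.join (RangeOK.of_check ck70) (RangeOK.of_check ck71) (Eq.refl 1363)) (Eq.refl 1345)) (Eq.refl 1308)) (RangeOK.join (RangeOK.join (RangeOK.join (RangeOK.of_check ck72) (RangeOK.of_check ck73) (Eq.refl 1400)) (RangeOK.join (RangeOK.of_check ck74) (RangeOK.of_check ck75) (Eq.refl 1438)) (Eq.refl 1419)) (RangeOK.join (RangeOK.join (RangeOK.of_check ck76) (RangeOK.of_check ck77) (Eq.refl 1476)) (RangeOK.join (RangeOK.of_check ck78) (RangeOK.of_check ck79) (Eq.refl 1513)) (Eq.refl 1495)) (Eq.refl 1457)) (Eq.refl 1382)) (RangeOK.join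 (RangeOK.join (RangeOK.join (RangeOK.join (RangeOK.of_check ck80) (RangeOK.of_check ck81) (Eq.refl 1552)) (RangeOK.join (RangeOK.of_check ck82) (RangeOK.of_check ck83) (Eq.refl 1591)) (Eq.refl 1572)) (RangeOK.join (RangeOK.join (RangeOK.of_check ck84) (RangeOK.of_check ck85) (Eq.refl 1628)) (RangeOK.join (RangeOK.of_check ck86) (RangeOK.of_check ck87) (Eq.refl 1665)) (Eq.refl 1646)) (Eq.refl 1610)) (RangeOK.join (RangeOK.join (RangeOK.join (RangeOK.of_check ck88) (RangeOK.of_check ck89) (Eq.refl 1702)) (RangeOK.join (RangeOK.of_check ck90) (RangeOK.of_check ck91) (Eq.refl 1736)) (Eq.refl 1719)) (RangeOK.join (RangeOK.join (RangeOK.of_check ck92) (RangeOK.of_check ck93) (Eq.refl 1773)) (RangeOK.join (RangeOK.of_check ck94) (RangeOK.of_check ck95) (Eq.refl 1809)) (Eq.refl 1791)) (Eq.refl 1755)) (Eq.refl 1684)) (Eq.refl 1532)) (RangeOK.join (RangeOK.join (RangeOK.join (RangeOK.join (RangeOK.join (RangeOK.of_check ck96) (RangeOK.of_check ck97) (Eq.refl 1844)) (RangeOK.join (RangeOK.of_check ck98) (RangeOK.of_check ck99) (Eq.refl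 1882)) (Eq.refl 1864)) (RangeOK.join (RangeOK.join (RangeOK.of_check ck100) (RangeOK.of_check ck101) (Eq.refl 1918)) (RangeOK.join (RangeOK.of_check ck102) (RangeOK.of_check ck103) (Eq.refl 1952)) (Eq.refl 1935)) (Eq.refl 1900)) (RangeOK.join (RangeOK.join (RangeOK.join (RangeOK.of_check ck104) (RangeOK.of_check ck105) (Eq.refl 1987)) (RangeOK.join (RangeOK.of_check ck106) (RangeOK.of_check ck107) (Eq.refl 2026)) (Eq.refl 2007)) (RangeOK.join (RangeOK.join (RangeOK.of_check ck108) (RangeOK.of_check ck109) (Eq.refl 2064)) (RangeOK.join (RangeOK.of_check ck110) (RangeOK.of_check ck111) (Eq.refl 2098)) (Eq.refl 2081)) (Eq.refl 2045)) (Eq.refl 1970)) (RangeOK.join (RangeOK.join (RangeOK.join (RangeOK.join (RangeOK.of_check ck112) (RangeOK.of_check ck113) (Eq.refl 2138)) (RangeOK.join (RangeOK.of_check ck114) (RangeOK.of_check ck115) (Eq.refl 2176)) (Eq.refl 2156)) (RangeOK.join (RangeOK.join (RangeOK.of_check ck116) (RangeOK.of_check ck117) (Eq.refl 2214)) (RangeOK.join (RangeOK.of_check ck118) (RangeOK.of_check ck119) (Eq.refl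 2251)) (Eq.refl 2233)) (Eq.refl 2196)) (RangeOK.join (RangeOK.join (RangeOK.join (RangeOK.of_check ck120) (RangeOK.of_check ck121) (Eq.refl 2294)) (RangeOK.join (RangeOK.of_check ck122) (RangeOK.of_check ck123) (Eq.refl 2337)) (Eq.refl 2314)) (RangeOK.join (RangeOK.join (RangeOK.of_check ck124) (RangeOK.of_check ck125) (Eq.refl 2383)) (RangeOK.join (RangeOK.of_check ck126) (RangeOK.of_check ck127) (Eq.refl 2427)) (Eq.refl 2407)) (Eq.refl 2358)) (Eq.refl 2273)) (Eq.refl 2119)) (Eq.refl 1826)

end Vale.Agent.Snaky.P3
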