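import Vale.Agent.Snaky.P3.Tbl

namespace Vale.Agent.Snaky.P3

theorem ck640 : checkRange tbl 12693 18 = 0 := by decide +kernel
theorem ck641 : checkRange tbl 12711 19 = 0 := by decide +kernel
theorem ck642 : checkRange tbl 12730 16 = 0 := by decide +kernel
theorem ck643 : checkRange tbl 12746 13 = 0 := by decide +kernel
theorem ck644 : checkRange tbl 12759 14 = 0 := by decide +kernel
theorem ck645 : checkRange tbl 12773 17 = 0 := by decide +kernel
theorem ck646 : checkRange tbl 12790 17 = 0 := by decide +kernel
theorem ck647 : checkRange tbl 12807 17 = 0 := by decide +kernel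
theorem ck648 : checkRange tbl 12824 14 = 0 := by decide +kernel
theorem ck649 : checkRange tbl 12838 16 = 0 := by decide +kernel
theorem ck650 : checkRange tbl 12854 19 = 0 := by decide +kernel
theorem ck651 : checkRange tbl 12873 15 = 0 := by decide +kernel
theorem ck652 : checkRange tbl 12888 15 = 0 := by decide +kernel
theorem ck653 : checkRange tbl 12903 15 = 0 := by decide +kernel
theorem ck654 : checkRange tbl 12918 15 = 0 := by decide +kernel
theorem ck655 : checkRange tbl 12933 15 = 0 := by decide +kernel
theorem ck656 : checkRange tbl 12948 17 = 0 := by decide +kernel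
theorem ck657 : checkRange tbl 12965 18 = 0 := by decide +kernel
theorem ck658 : checkRange tbl 12983 16 = 0 := by decide +kernel
theorem ck659 : checkRange tbl 12999 16 = 0 := by decide +kernel
theorem ck660 : checkRange tbl 13015 16 = 0 := by decide +kernel
theorem ck661 : checkRange tbl 13031 14 = 0 := by decide +kernel
theorem ck662 : checkRange tbl 13045 13 = 0 := by decide +kernel
theorem ck663 : checkRange tbl 13058 11 = 0 := by decide +kernel
theorem ck664 : checkRange tbl 13069 14 = 0 := by decide +kernel
theorem ck665 : checkRange tbl 13083 16 = 0 := by decide +kernel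
theorem ck666 : checkRange tbl 13099 15 = 0 := by decide +kernel
theorem ck667 : checkRange tbl 13114 17 = 0 := by decide +kernel
theorem ck668 : checkRange tbl 13131 16 = 0 := by decide +kernel
theorem ck669 : checkRange tbl 13147 16 = 0 := by decide +kernel
theorem ck670 : checkRange tbl 13163 17 = 0 := by decide +kernel
theorem ck671 : checkRange tbl 13180 17 = 0 := by decide +kernel
theorem ck672 : checkRange tbl 13197 17 = 0 := by decide +kernel
theorem ck673 : checkRange tbl 13214 16 = 0 := by decide +kernel
theorem ck674 : checkRange tbl 13230 15 = 0 := by decide +kernel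
theorem ck675 : checkRange tbl 13245 15 = 0 := by decide +kernel
theorem ck676 : checkRange tbl 13260 14 = 0 := by decide +kernel
theorem ck677 : checkRange tbl 13274 14 = 0 := by decide +kernel
theorem ck678 : checkRange tbl 13288 13 = 0 := by decide +kernel
theorem ck679 : checkRange tbl 13301 15 = 0 := by decide +kernel
theorem ck680 : checkRange tbl 13316 14 = 0 := by decide +kernel
theorem ck681 : checkRange tbl 13330 16 = 0 := by decide +kernel
theorem ck682 : checkRange tbl 13346 15 = 0 := by decide +kernel
theorem ck683 : checkRange tbl 13361 15 = 0 := by decide +kernel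
theorem ck684 : checkRange tbl 13376 20 = 0 := by decide +kernel
theorem ck685 : checkRange tbl 13396 18 = 0 := by decide +kernel
theorem ck686 : checkRange tbl 13414 14 = 0 := by decide +kernel
theorem ck687 : checkRange tbl 13428 16 = 0 := by decide +kernel
theorem ck688 : checkRange tbl 13444 26 = 0 := by decide +kernel
theorem ck689 : checkRange tbl 13470 19 = 0 := by decide +kernel
theorem ck690 : checkRange tbl 13489 18 = 0 := by decide +kernel
theorem ck691 : checkRange tbl 13507 15 = 0 := by decide +kernel
theorem ck692 : checkRange tbl 13522 19 = 0 := by decide +kernel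
theorem ck693 : checkRange tbl 13541 23 = 0 := by decide +kernel
theorem ck694 : checkRange tbl 13564 18 = 0 := by decide +kernel
theorem ck695 : checkRange tbl 13582 22 = 0 := by decide +kernel
theorem ck696 : checkRange tbl 13604 12 = 0 := by decide +kernel
theorem ck697 : checkRange tbl 13616 12 = 0 := by decide +kernel
theorem ck698 : checkRange tbl 13628 14 = 0 := by decide +kernel
theorem ck699 : checkRange tbl 13642 21 = 0 := by decide +kernel
theorem ck700 : checkRange tbl 13663 18 = 0 := by decide +kernel
theorem ck701 : checkRange tbl 13681 17 = 0 := by decide +kernel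
theorem ck702 : checkRange tbl 13698 19 = 0 := by decide +kernel
theorem ck703 : checkRange tbl 13717 23 = 0 := by decide +kernel

theorem rng10 : RangeOK tbl 12693 1047 := RangeOK.join (RangeOK.join (RangeOK.join (RangeOK.join (RangeOK.join (RangeOK.join (RangeOK.of_check ck640) (RangeOK.of_check ck641) (Eq.refl 12711)) (RangeOK.join (RangeOK.of_check ck642) (RangeOK.of_check ck643) (Eq.refl 12746)) (Eq.refl 12730)) (RangeOK.join (RangeOK.join (RangeOK.of_check ck644) (RangeOK.of_check ck645) (Eq.refl 12773)) (RangeOK.join (RangeOK.of_check ck646) (RangeOK.of_check ck647) (Eq.refl 12807)) (Eq.refl 12790)) (Eq.refl 12759)) (RangeOK.join (RangeOK.join (RangeOK.join (RangeOK.of_check ck648) (RangeOK.of_check ck649) (Eq.refl 12838)) (RangeOK.join (RangeOK.of_check ck650) (RangeOK.of_check ck651) (Eq.refl 12873)) (Eq.refl 12854)) (RangeOK.join (RangeOK.join (RangeOK.of_check ck652) (RangeOK.of_check ck653) (Eq.refl 12903)) (RangeOK.join (RangeOK.of_check ck654) (RangeOK.of_check ck655) (Eq.refl 12933)) (Eq.refl 12918)) (Eq.refl 12888)) (Eq.refl 12824)) (RangeOK.join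 (RangeOK.join (RangeOK.join (RangeOK.join (RangeOK.of_check ck656) (RangeOK.of_check ck657) (Eq.refl 12965)) (RangeOK.join (RangeOK.of_check ck658) (RangeOK.of_check ck659) (Eq.refl 12999)) (Eq.refl 12983)) (RangeOK.join (RangeOK.join (RangeOK.of_check ck660) (RangeOK.of_check ck661) (Eq.refl 13031)) (RangeOK.join (RangeOK.of_check ck662) (RangeOK.of_check ck663) (Eq.refl 13058)) (Eq.refl 13045)) (Eq.refl 13015)) (RangeOK.join (RangeOK.join (RangeOK.join (RangeOK.of_check ck664) (RangeOK.of_check ck665) (Eq.refl 13083)) (RangeOK.join (RangeOK.of_check ck666) (RangeOK.of_check ck667) (Eq.refl 13114)) (Eq.refl 13099)) (RangeOK.join (RangeOK.join (RangeOK.of_check ck668) (RangeOK.of_check ck669) (Eq.refl 13147)) (RangeOK.join (RangeOK.of_check ck670) (RangeOK.of_check ck671) (Eq.refl 13180)) (Eq.refl 13163)) (Eq.refl 13131)) (Eq.refl 13069)) (Eq.refl 12948)) (RangeOK.join (RangeOK.join (RangeOK.join (RangeOK.join (RangeOK.join (RangeOK.of_check ck672) (RangeOK.of_check ck673) (Eq.refl 13214)) (RangeOK.join (RangeOK.of_check ck674) (RangeOK.of_check ck675)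 (Eq.refl 13245)) (Eq.refl 13230)) (RangeOK.join (RangeOK.join (RangeOK.of_check ck676) (RangeOK.of_check ck677) (Eq.refl 13274)) (RangeOK.join (RangeOK.of_check ck678) (RangeOK.of_check ck679) (Eq.refl 13301)) (Eq.refl 13288)) (Eq.refl 13260)) (RangeOK.join (RangeOK.join (RangeOK.join (RangeOK.of_check ck680) (RangeOK.of_check ck681) (Eq.refl 13330)) (RangeOK.join (RangeOK.of_check ck682) (RangeOK.of_check ck683) (Eq.refl 13361)) (Eq.refl 13346)) (RangeOK.join (RangeOK.join (RangeOK.of_check ck684) (RangeOK.of_check ck685) (Eq.refl 13396)) (RangeOK.join (RangeOK.of_check ck686) (RangeOK.of_check ck687) (Eq.refl 13428)) (Eq.refl 13414)) (Eq.refl 13376)) (Eq.refl 13316)) (RangeOK.join (RangeOK.join (RangeOK.join (RangeOK.join (RangeOK.of_check ck688) (RangeOK.of_check ck689) (Eq.refl 13470)) (RangeOK.join (RangeOK.of_check ck690) (RangeOK.of_check ck691) (Eq.refl 13507)) (Eq.refl 13489)) (RangeOK.join (RangeOK.join (RangeOK.of_check ck692) (RangeOK.of_check ck693) (Eq.refl 13541)) (RangeOK.join (RangeOK.of_check ck694) (RangeOK.of_check ck695) (Eq.refl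 13582)) (Eq.refl 13564)) (Eq.refl 13522)) (RangeOK.join (RangeOK.join (RangeOK.join (RangeOK.of_check ck696) (RangeOK.of_check ck697) (Eq.refl 13616)) (RangeOK.join (RangeOK.of_check ck698) (RangeOK.of_check ck699) (Eq.refl 13642)) (Eq.refl 13628)) (RangeOK.join (RangeOK.join (RangeOK.of_check ck700) (RangeOK.of_check ck701) (Eq.refl 13681)) (RangeOK.join (RangeOK.of_check ck702) (RangeOK.of_check ck703) (Eq.refl 13717)) (Eq.refl 13698)) (Eq.refl 13663)) (Eq.refl 13604)) (Eq.refl 13444)) (Eq.refl 13197)

end Vale.Agent.Snaky.P3
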