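import Vale.Agent.Snaky.P3.Tbl

namespace Vale.Agent.Snaky.P3

theorem ck704 : checkRange tbl 13740 22 = 0 := by decide +kernel
theorem ck705 : checkRange tbl 13762 27 = 0 := by decide +kernel
theorem ck706 : checkRange tbl 13789 23 = 0 := by decide +kernel
theorem ck707 : checkRange tbl 13812 24 = 0 := by decide +kernel
theorem ck708 : checkRange tbl 13836 23 = 0 := by decide +kernel
theorem ck709 : checkRange tbl 13859 22 = 0 := by decide +kernel
theorem ck710 : checkRange tbl 13881 30 = 0 := by decide +kernel
theorem ck711 : checkRange tbl 13911 26 = 0 := by decide +kernel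
theorem ck712 : checkRange tbl 13937 27 = 0 := by decide +kernel
theorem ck713 : checkRange tbl 13964 25 = 0 := by decide +kernel
theorem ck714 : checkRange tbl 13989 24 = 0 := by decide +kernel
theorem ck715 : checkRange tbl 14013 30 = 0 := by decide +kernel
theorem ck716 : checkRange tbl 14043 29 = 0 := by decide +kernel
theorem ck717 : checkRange tbl 14072 25 = 0 := by decide +kernel
theorem ck718 : checkRange tbl 14097 26 = 0 := by decide +kernel
theorem ck719 : checkRange tbl 14123 26 = 0 := by decide +kernel
theorem ck720 : checkRange tbl 14149 25 = 0 := by decide +kernel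
theorem ck721 : checkRange tbl 14174 27 = 0 := by decide +kernel
theorem ck722 : checkRange tbl 14201 28 = 0 := by decide +kernel
theorem ck723 : checkRange tbl 14229 26 = 0 := by decide +kernel
theorem ck724 : checkRange tbl 14255 30 = 0 := by decide +kernel
theorem ck725 : checkRange tbl 14285 24 = 0 := by decide +kernel
theorem ck726 : checkRange tbl 14309 27 = 0 := by decide +kernel
theorem ck727 : checkRange tbl 14336 30 = 0 := by decide +kernel
theorem ck728 : checkRange tbl 14366 30 = 0 := by decide +kernel
theorem ck729 : checkRange tbl 14396 28 = 0 := by decide +kernel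
theorem ck730 : checkRange tbl 14424 22 = 0 := by decide +kernel
theorem ck731 : checkRange tbl 14446 27 = 0 := by decide +kernel
theorem ck732 : checkRange tbl 14473 20 = 0 := by decide +kernel
theorem ck733 : checkRange tbl 14493 26 = 0 := by decide +kernel
theorem ck734 : checkRange tbl 14519 25 = 0 := by decide +kernel
theorem ck735 : checkRange tbl 14544 23 = 0 := by decide +kernel
theorem ck736 : checkRange tbl 14567 30 = 0 := by decide +kernel
theorem ck737 : checkRange tbl 14597 21 = 0 := by decide +kernel
theorem ck738 : checkRange tbl 14618 28 = 0 := by decide +kernel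
theorem ck739 : checkRange tbl 14646 28 = 0 := by decide +kernel
theorem ck740 : checkRange tbl 14674 30 = 0 := by decide +kernel
theorem ck741 : checkRange tbl 14704 25 = 0 := by decide +kernel
theorem ck742 : checkRange tbl 14729 15 = 0 := by decide +kernel
theorem ck743 : checkRange tbl 14744 15 = 0 := by decide +kernel
theorem ck744 : checkRange tbl 14759 14 = 0 := by decide +kernel
theorem ck745 : checkRange tbl 14773 15 = 0 := by decide +kernel
theorem ck746 : checkRange tbl 14788 16 = 0 := by decide +kernel
theorem ck747 : checkRange tbl 14804 15 = 0 := by decide +kernel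
theorem ck748 : checkRange tbl 14819 16 = 0 := by decide +kernel
theorem ck749 : checkRange tbl 14835 17 = 0 := by decide +kernel
theorem ck750 : checkRange tbl 14852 18 = 0 := by decide +kernel
theorem ck751 : checkRange tbl 14870 15 = 0 := by decide +kernel
theorem ck752 : checkRange tbl 14885 16 = 0 := by decide +kernel
theorem ck753 : checkRange tbl 14901 15 = 0 := by decide +kernel
theorem ck754 : checkRange tbl 14916 17 = 0 := by decide +kernel
theorem ck755 : checkRange tbl 14933 15 = 0 := by decide +kernel
theorem ck756 : checkRange tbl 14948 16 = 0 := by decide +kernel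
theorem ck757 : checkRange tbl 14964 15 = 0 := by decide +kernel
theorem ck758 : checkRange tbl 14979 17 = 0 := by decide +kernel
theorem ck759 : checkRange tbl 14996 16 = 0 := by decide +kernel
theorem ck760 : checkRange tbl 15012 17 = 0 := by decide +kernel
theorem ck761 : checkRange tbl 15029 18 = 0 := by decide +kernel
theorem ck762 : checkRange tbl 15047 18 = 0 := by decide +kernel
theorem ck763 : checkRange tbl 15065 17 = 0 := by decide +kernel
theorem ck764 : checkRange tbl 15082 17 = 0 := by decide +kernel
theorem ck765 : checkRange tbl 15099 18 = 0 := by decide +kernel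
theorem ck766 : checkRange tbl 15117 17 = 0 := by decide +kernel
theorem ck767 : checkRange tbl 15134 18 = 0 := by decide +kernel

theorem rng11 : RangeOK tbl 13740 1412 := RangeOK.join (RangeOK.join (RangeOK.join (RangeOK.join (RangeOK.join (RangeOK.join (RangeOK.of_check ck704) (RangeOK.of_check ck705) (Eq.refl 13762)) (RangeOK.join (RangeOK.of_check ck706) (RangeOK.of_check ck707) (Eq.refl 13812)) (Eq.refl 13789)) (RangeOK.join (RangeOK.join (RangeOK.of_check ck708) (RangeOK.of_check ck709) (Eq.refl 13859)) (RangeOK.join (RangeOK.of_check ck710) (RangeOK.of_check ck711) (Eq.refl 13911)) (Eq.refl 13881)) (Eq.refl 13836)) (RangeOK.join (RangeOK.join (RangeOK.join (RangeOK.of_check ck712) (RangeOK.of_check ck713) (Eq.refl 13964)) (RangeOK.join (RangeOK.of_check ck714) (RangeOK.of_check ck715) (Eq.refl 14013)) (Eq.refl 13989)) (RangeOK.join (RangeOK.join (RangeOK.of_check ck716) (RangeOK.of_check ck717) (Eq.refl 14072)) (RangeOK.join (RangeOK.of_check ck718) (RangeOK.of_check ck719) (Eq.refl 14123)) (Eq.refl 14097)) (Eq.refl 14043)) (Eq.refl 13937)) (RangeOK.join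 (RangeOK.join (RangeOK.join (RangeOK.join (RangeOK.of_check ck720) (RangeOK.of_check ck721) (Eq.refl 14174)) (RangeOK.join (RangeOK.of_check ck722) (RangeOK.of_check ck723) (Eq.refl 14229)) (Eq.refl 14201)) (RangeOK.join (RangeOK.join (RangeOK.of_check ck724) (RangeOK.of_check ck725) (Eq.refl 14285)) (RangeOK.join (RangeOK.of_check ck726) (RangeOK.of_check ck727) (Eq.refl 14336)) (Eq.refl 14309)) (Eq.refl 14255)) (RangeOK.join (RangeOK.join (RangeOK.join (RangeOK.of_check ck728) (RangeOK.of_check ck729) (Eq.refl 14396)) (RangeOK.join (RangeOK.of_check ck730) (RangeOK.of_check ck731) (Eq.refl 14446)) (Eq.refl 14424)) (RangeOK.join (RangeOK.join (RangeOK.of_check ck732) (RangeOK.of_check ck733) (Eq.refl 14493)) (RangeOK.join (RangeOK.of_check ck734) (RangeOK.of_check ck735) (Eq.refl 14544)) (Eq.refl 14519)) (Eq.refl 14473)) (Eq.refl 14366)) (Eq.refl 14149)) (RangeOK.join (RangeOK.join (RangeOK.join (RangeOK.join (RangeOK.join (RangeOK.of_check ck736) (RangeOK.of_check ck737) (Eq.refl 14597)) (RangeOK.join (RangeOK.of_check ck738) (RangeOK.of_check ck739)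 (Eq.refl 14646)) (Eq.refl 14618)) (RangeOK.join (RangeOK.join (RangeOK.of_check ck740) (RangeOK.of_check ck741) (Eq.refl 14704)) (RangeOK.join (RangeOK.of_check ck742) (RangeOK.of_check ck743) (Eq.refl 14744)) (Eq.refl 14729)) (Eq.refl 14674)) (RangeOK.join (RangeOK.join (RangeOK.join (RangeOK.of_check ck744) (RangeOK.of_check ck745) (Eq.refl 14773)) (RangeOK.join (RangeOK.of_check ck746) (RangeOK.of_check ck747) (Eq.refl 14804)) (Eq.refl 14788)) (RangeOK.join (RangeOK.join (RangeOK.of_check ck748) (RangeOK.of_check ck749) (Eq.refl 14835)) (RangeOK.join (RangeOK.of_check ck750) (RangeOK.of_check ck751) (Eq.refl 14870)) (Eq.refl 14852)) (Eq.refl 14819)) (Eq.refl 14759)) (RangeOK.join (RangeOK.join (RangeOK.join (RangeOK.join (RangeOK.of_check ck752) (RangeOK.of_check ck753) (Eq.refl 14901)) (RangeOK.join (RangeOK.of_check ck754) (RangeOK.of_check ck755) (Eq.refl 14933)) (Eq.refl 14916)) (RangeOK.join (RangeOK.join (RangeOK.of_check ck756) (RangeOK.of_check ck757) (Eq.refl 14964)) (RangeOK.join (RangeOK.of_check ck758) (RangeOK.of_check ck759) (Eq.refl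 14996)) (Eq.refl 14979)) (Eq.refl 14948)) (RangeOK.join (RangeOK.join (RangeOK.join (RangeOK.of_check ck760) (RangeOK.of_check ck761) (Eq.refl 15029)) (RangeOK.join (RangeOK.of_check ck762) (RangeOK.of_check ck763) (Eq.refl 15065)) (Eq.refl 15047)) (RangeOK.join (RangeOK.join (RangeOK.of_check ck764) (RangeOK.of_check ck765) (Eq.refl 15099)) (RangeOK.join (RangeOK.of_check ck766) (RangeOK.of_check ck767) (Eq.refl 15134)) (Eq.refl 15117)) (Eq.refl 15082)) (Eq.refl 15012)) (Eq.refl 14885)) (Eq.refl 14567)

end Vale.Agent.Snaky.P3
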