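import Vale.Agent.Snaky.P3.Tbl

namespace Vale.Agent.Snaky.P3

theorem ck768 : checkRange tbl 15152 15 = 0 := by decide +kernel
theorem ck769 : checkRange tbl 15167 15 = 0 := by decide +kernel
theorem ck770 : checkRange tbl 15182 17 = 0 := by decide +kernel
theorem ck771 : checkRange tbl 15199 15 = 0 := by decide +kernel
theorem ck772 : checkRange tbl 15214 16 = 0 := by decide +kernel
theorem ck773 : checkRange tbl 15230 16 = 0 := by decide +kernel
theorem ck774 : checkRange tbl 15246 13 = 0 := by decide +kernel
theorem ck775 : checkRange tbl 15259 15 = 0 := by decide +kernel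
theorem ck776 : checkRange tbl 15274 15 = 0 := by decide +kernel
theorem ck777 : checkRange tbl 15289 14 = 0 := by decide +kernel
theorem ck778 : checkRange tbl 15303 14 = 0 := by decide +kernel
theorem ck779 : checkRange tbl 15317 15 = 0 := by decide +kernel
theorem ck780 : checkRange tbl 15332 13 = 0 := by decide +kernel
theorem ck781 : checkRange tbl 15345 17 = 0 := by decide +kernel
theorem ck782 : checkRange tbl 15362 14 = 0 := by decide +kernel
theorem ck783 : checkRange tbl 15376 15 = 0 := by decide +kernel
theorem ck784 : checkRange tbl 15391 15 = 0 := by decide +kernel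
theorem ck785 : checkRange tbl 15406 15 = 0 := by decide +kernel
theorem ck786 : checkRange tbl 15421 19 = 0 := by decide +kernel
theorem ck787 : checkRange tbl 15440 17 = 0 := by decide +kernel
theorem ck788 : checkRange tbl 15457 11 = 0 := by decide +kernel
theorem ck789 : checkRange tbl 15468 13 = 0 := by decide +kernel
theorem ck790 : checkRange tbl 15481 15 = 0 := by decide +kernel
theorem ck791 : checkRange tbl 15496 13 = 0 := by decide +kernel
theorem ck792 : checkRange tbl 15509 16 = 0 := by decide +kernel
theorem ck793 : checkRange tbl 15525 14 = 0 := by decide +kernel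
theorem ck794 : checkRange tbl 15539 16 = 0 := by decide +kernel
theorem ck795 : checkRange tbl 15555 16 = 0 := by decide +kernel
theorem ck796 : checkRange tbl 15571 14 = 0 := by decide +kernel
theorem ck797 : checkRange tbl 15585 17 = 0 := by decide +kernel
theorem ck798 : checkRange tbl 15602 15 = 0 := by decide +kernel
theorem ck799 : checkRange tbl 15617 13 = 0 := by decide +kernel
theorem ck800 : checkRange tbl 15630 14 = 0 := by decide +kernel
theorem ck801 : checkRange tbl 15644 13 = 0 := by decide +kernel
theorem ck802 : checkRange tbl 15657 15 = 0 := by decide +kernel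
theorem ck803 : checkRange tbl 15672 15 = 0 := by decide +kernel
theorem ck804 : checkRange tbl 15687 13 = 0 := by decide +kernel
theorem ck805 : checkRange tbl 15700 15 = 0 := by decide +kernel
theorem ck806 : checkRange tbl 15715 15 = 0 := by decide +kernel
theorem ck807 : checkRange tbl 15730 21 = 0 := by decide +kernel
theorem ck808 : checkRange tbl 15751 15 = 0 := by decide +kernel
theorem ck809 : checkRange tbl 15766 19 = 0 := by decide +kernel
theorem ck810 : checkRange tbl 15785 26 = 0 := by decide +kernel
theorem ck811 : checkRange tbl 15811 22 = 0 := by decide +kernel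
theorem ck812 : checkRange tbl 15833 20 = 0 := by decide +kernel
theorem ck813 : checkRange tbl 15853 28 = 0 := by decide +kernel
theorem ck814 : checkRange tbl 15881 16 = 0 := by decide +kernel
theorem ck815 : checkRange tbl 15897 22 = 0 := by decide +kernel
theorem ck816 : checkRange tbl 15919 19 = 0 := by decide +kernel
theorem ck817 : checkRange tbl 15938 19 = 0 := by decide +kernel
theorem ck818 : checkRange tbl 15957 24 = 0 := by decide +kernel
theorem ck819 : checkRange tbl 15981 24 = 0 := by decide +kernel
theorem ck820 : checkRange tbl 16005 24 = 0 := by decide +kernel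
theorem ck821 : checkRange tbl 16029 30 = 0 := by decide +kernel
theorem ck822 : checkRange tbl 16059 27 = 0 := by decide +kernel
theorem ck823 : checkRange tbl 16086 25 = 0 := by decide +kernel
theorem ck824 : checkRange tbl 16111 23 = 0 := by decide +kernel
theorem ck825 : checkRange tbl 16134 30 = 0 := by decide +kernel
theorem ck826 : checkRange tbl 16164 25 = 0 := by decide +kernel
theorem ck827 : checkRange tbl 16189 21 = 0 := by decide +kernel
theorem ck828 : checkRange tbl 16210 25 = 0 := by decide +kernel
theorem ck829 : checkRange tbl 16235 30 = 0 := by decide +kernel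
theorem ck830 : checkRange tbl 16265 30 = 0 := by decide +kernel
theorem ck831 : checkRange tbl 16295 30 = 0 := by decide +kernel

theorem rng12 : RangeOK tbl 15152 1173 := RangeOK.join (RangeOK.join (RangeOK.join (RangeOK.join (RangeOK.join (RangeOK.join (RangeOK.of_check ck768) (RangeOK.of_check ck769) (Eq.refl 15167)) (RangeOK.join (RangeOK.of_check ck770) (RangeOK.of_check ck771) (Eq.refl 15199)) (Eq.refl 15182)) (RangeOK.join (RangeOK.join (RangeOK.of_check ck772) (RangeOK.of_check ck773) (Eq.refl 15230)) (RangeOK.join (RangeOK.of_check ck774) (RangeOK.of_check ck775) (Eq.refl 15259)) (Eq.refl 15246)) (Eq.refl 15214)) (RangeOK.join (RangeOK.join (RangeOK.join (RangeOK.of_check ck776) (RangeOK.of_check ck777) (Eq.refl 15289)) (RangeOK.join (RangeOK.of_check ck778) (RangeOK.of_check ck779) (Eq.refl 15317)) (Eq.refl 15303)) (RangeOK.join (RangeOK.join (RangeOK.of_check ck780) (RangeOK.of_check ck781) (Eq.refl 15345)) (RangeOK.join (RangeOK.of_check ck782) (RangeOK.of_check ck783) (Eq.refl 15376)) (Eq.refl 15362)) (Eq.refl 15332)) (Eq.refl 15274)) (RangeOK.join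 (RangeOK.join (RangeOK.join (RangeOK.join (RangeOK.of_check ck784) (RangeOK.of_check ck785) (Eq.refl 15406)) (RangeOK.join (RangeOK.of_check ck786) (RangeOK.of_check ck787) (Eq.refl 15440)) (Eq.refl 15421)) (RangeOK.join (RangeOK.join (RangeOK.of_check ck788) (RangeOK.of_check ck789) (Eq.refl 15468)) (RangeOK.join (RangeOK.of_check ck790) (RangeOK.of_check ck791) (Eq.refl 15496)) (Eq.refl 15481)) (Eq.refl 15457)) (RangeOK.join (RangeOK.join (RangeOK.join (RangeOK.of_check ck792) (RangeOK.of_check ck793) (Eq.refl 15525)) (RangeOK.join (RangeOK.of_check ck794) (RangeOK.of_check ck795) (Eq.refl 15555)) (Eq.refl 15539)) (RangeOK.join (RangeOK.join (RangeOK.of_check ck796) (RangeOK.of_check ck797) (Eq.refl 15585)) (RangeOK.join (RangeOK.of_check ck798) (RangeOK.of_check ck799) (Eq.refl 15617)) (Eq.refl 15602)) (Eq.refl 15571)) (Eq.refl 15509)) (Eq.refl 15391)) (RangeOK.join (RangeOK.join (RangeOK.join (RangeOK.join (RangeOK.join (RangeOK.of_check ck800) (RangeOK.of_check ck801) (Eq.refl 15644)) (RangeOK.join (RangeOK.of_check ck802) (RangeOK.of_check ck803)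 (Eq.refl 15672)) (Eq.refl 15657)) (RangeOK.join (RangeOK.join (RangeOK.of_check ck804) (RangeOK.of_check ck805) (Eq.refl 15700)) (RangeOK.join (RangeOK.of_check ck806) (RangeOK.of_check ck807) (Eq.refl 15730)) (Eq.refl 15715)) (Eq.refl 15687)) (RangeOK.join (RangeOK.join (RangeOK.join (RangeOK.of_check ck808) (RangeOK.of_check ck809) (Eq.refl 15766)) (RangeOK.join (RangeOK.of_check ck810) (RangeOK.of_check ck811) (Eq.refl 15811)) (Eq.refl 15785)) (RangeOK.join (RangeOK.join (RangeOK.of_check ck812) (RangeOK.of_check ck813) (Eq.refl 15853)) (RangeOK.join (RangeOK.of_check ck814) (RangeOK.of_check ck815) (Eq.refl 15897)) (Eq.refl 15881)) (Eq.refl 15833)) (Eq.refl 15751)) (RangeOK.join (RangeOK.join (RangeOK.join (RangeOK.join (RangeOK.of_check ck816) (RangeOK.of_check ck817) (Eq.refl 15938)) (RangeOK.join (RangeOK.of_check ck818) (RangeOK.of_check ck819) (Eq.refl 15981)) (Eq.refl 15957)) (RangeOK.join (RangeOK.join (RangeOK.of_check ck820) (RangeOK.of_check ck821) (Eq.refl 16029)) (RangeOK.join (RangeOK.of_check ck822) (RangeOK.of_check ck823) (Eq.refl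 16086)) (Eq.refl 16059)) (Eq.refl 16005)) (RangeOK.join (RangeOK.join (RangeOK.join (RangeOK.of_check ck824) (RangeOK.of_check ck825) (Eq.refl 16134)) (RangeOK.join (RangeOK.of_check ck826) (RangeOK.of_check ck827) (Eq.refl 16189)) (Eq.refl 16164)) (RangeOK.join (RangeOK.join (RangeOK.of_check ck828) (RangeOK.of_check ck829) (Eq.refl 16235)) (RangeOK.join (RangeOK.of_check ck830) (RangeOK.of_check ck831) (Eq.refl 16295)) (Eq.refl 16265)) (Eq.refl 16210)) (Eq.refl 16111)) (Eq.refl 15919)) (Eq.refl 15630)

end Vale.Agent.Snaky.P3
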