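import Vale.Agent.Snaky.P3.Tbl

namespace Vale.Agent.Snaky.P3

theorem ck832 : checkRange tbl 16325 30 = 0 := by decide +kernel
theorem ck833 : checkRange tbl 16355 23 = 0 := by decide +kernel
theorem ck834 : checkRange tbl 16378 30 = 0 := by decide +kernel
theorem ck835 : checkRange tbl 16408 30 = 0 := by decide +kernel
theorem ck836 : checkRange tbl 16438 25 = 0 := by decide +kernel
theorem ck837 : checkRange tbl 16463 23 = 0 := by decide +kernel
theorem ck838 : checkRange tbl 16486 28 = 0 := by decide +kernel
theorem ck839 : checkRange tbl 16514 28 = 0 := by decide +kernel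
theorem ck840 : checkRange tbl 16542 26 = 0 := by decide +kernel
theorem ck841 : checkRange tbl 16568 28 = 0 := by decide +kernel
theorem ck842 : checkRange tbl 16596 30 = 0 := by decide +kernel
theorem ck843 : checkRange tbl 16626 30 = 0 := by decide +kernel
theorem ck844 : checkRange tbl 16656 27 = 0 := by decide +kernel
theorem ck845 : checkRange tbl 16683 30 = 0 := by decide +kernel
theorem ck846 : checkRange tbl 16713 30 = 0 := by decide +kernel
theorem ck847 : checkRange tbl 16743 30 = 0 := by decide +kernel
theorem ck848 : checkRange tbl 16773 14 = 0 := by decide +kernel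
theorem ck849 : checkRange tbl 16787 15 = 0 := by decide +kernel
theorem ck850 : checkRange tbl 16802 15 = 0 := by decide +kernel
theorem ck851 : checkRange tbl 16817 16 = 0 := by decide +kernel
theorem ck852 : checkRange tbl 16833 16 = 0 := by decide +kernel
theorem ck853 : checkRange tbl 16849 13 = 0 := by decide +kernel
theorem ck854 : checkRange tbl 16862 16 = 0 := by decide +kernel
theorem ck855 : checkRange tbl 16878 13 = 0 := by decide +kernel
theorem ck856 : checkRange tbl 16891 15 = 0 := by decide +kernel
theorem ck857 : checkRange tbl 16906 16 = 0 := by decide +kernel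
theorem ck858 : checkRange tbl 16922 15 = 0 := by decide +kernel
theorem ck859 : checkRange tbl 16937 15 = 0 := by decide +kernel
theorem ck860 : checkRange tbl 16952 12 = 0 := by decide +kernel
theorem ck861 : checkRange tbl 16964 14 = 0 := by decide +kernel
theorem ck862 : checkRange tbl 16978 16 = 0 := by decide +kernel
theorem ck863 : checkRange tbl 16994 15 = 0 := by decide +kernel
theorem ck864 : checkRange tbl 17009 15 = 0 := by decide +kernel
theorem ck865 : checkRange tbl 17024 15 = 0 := by decide +kernel
theorem ck866 : checkRange tbl 17039 16 = 0 := by decide +kernel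
theorem ck867 : checkRange tbl 17055 17 = 0 := by decide +kernel
theorem ck868 : checkRange tbl 17072 15 = 0 := by decide +kernel
theorem ck869 : checkRange tbl 17087 14 = 0 := by decide +kernel
theorem ck870 : checkRange tbl 17101 16 = 0 := by decide +kernel
theorem ck871 : checkRange tbl 17117 15 = 0 := by decide +kernel
theorem ck872 : checkRange tbl 17132 15 = 0 := by decide +kernel
theorem ck873 : checkRange tbl 17147 15 = 0 := by decide +kernel
theorem ck874 : checkRange tbl 17162 11 = 0 := by decide +kernel
theorem ck875 : checkRange tbl 17173 14 = 0 := by decide +kernel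
theorem ck876 : checkRange tbl 17187 14 = 0 := by decide +kernel
theorem ck877 : checkRange tbl 17201 14 = 0 := by decide +kernel
theorem ck878 : checkRange tbl 17215 13 = 0 := by decide +kernel
theorem ck879 : checkRange tbl 17228 14 = 0 := by decide +kernel
theorem ck880 : checkRange tbl 17242 12 = 0 := by decide +kernel
theorem ck881 : checkRange tbl 17254 18 = 0 := by decide +kernel
theorem ck882 : checkRange tbl 17272 14 = 0 := by decide +kernel
theorem ck883 : checkRange tbl 17286 15 = 0 := by decide +kernel
theorem ck884 : checkRange tbl 17301 14 = 0 := by decide +kernel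
theorem ck885 : checkRange tbl 17315 12 = 0 := by decide +kernel
theorem ck886 : checkRange tbl 17327 15 = 0 := by decide +kernel
theorem ck887 : checkRange tbl 17342 15 = 0 := by decide +kernel
theorem ck888 : checkRange tbl 17357 13 = 0 := by decide +kernel
theorem ck889 : checkRange tbl 17370 14 = 0 := by decide +kernel
theorem ck890 : checkRange tbl 17384 14 = 0 := by decide +kernel
theorem ck891 : checkRange tbl 17398 12 = 0 := by decide +kernel
theorem ck892 : checkRange tbl 17410 14 = 0 := by decide +kernel
theorem ck893 : checkRange tbl 17424 13 = 0 := by decide +kernel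
theorem ck894 : checkRange tbl 17437 14 = 0 := by decide +kernel
theorem ck895 : checkRange tbl 17451 12 = 0 := by decide +kernel

theorem rng13 : RangeOK tbl 16325 1138 := RangeOK.join (RangeOK.join (RangeOK.join (RangeOK.join (RangeOK.join (RangeOK.join (RangeOK.of_check ck832) (RangeOK.of_check ck833) (Eq.refl 16355)) (RangeOK.join (RangeOK.of_check ck834) (RangeOK.of_check ck835) (Eq.refl 16408)) (Eq.refl 16378)) (RangeOK.join (RangeOK.join (RangeOK.of_check ck836) (RangeOK.of_check ck837) (Eq.refl 16463)) (RangeOK.join (RangeOK.of_check ck838) (RangeOK.of_check ck839) (Eq.refl 16514)) (Eq.refl 16486)) (Eq.refl 16438)) (RangeOK.join (RangeOK.join (RangeOK.join (RangeOK.of_check ck840) (RangeOK.of_check ck841) (Eq.refl 16568)) (RangeOK.join (RangeOK.of_check ck842) (RangeOK.of_check ck843) (Eq.refl 16626)) (Eq.refl 16596)) (RangeOK.join (RangeOK.join (RangeOK.of_check ck844) (RangeOK.of_check ck845) (Eq.refl 16683)) (RangeOK.join (RangeOK.of_check ck846) (RangeOK.of_check ck847) (Eq.refl 16743)) (Eq.refl 16713)) (Eq.refl 16656)) (Eq.refl 16542)) (RangeOK.join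 (RangeOK.join (RangeOK.join (RangeOK.join (RangeOK.of_check ck848) (RangeOK.of_check ck849) (Eq.refl 16787)) (RangeOK.join (RangeOK.of_check ck850) (RangeOK.of_check ck851) (Eq.refl 16817)) (Eq.refl 16802)) (RangeOK.join (RangeOK.join (RangeOK.of_check ck852) (RangeOK.of_check ck853) (Eq.refl 16849)) (RangeOK.join (RangeOK.of_check ck854) (RangeOK.of_check ck855) (Eq.refl 16878)) (Eq.refl 16862)) (Eq.refl 16833)) (RangeOK.join (RangeOK.join (RangeOK.join (RangeOK.of_check ck856) (RangeOK.of_check ck857) (Eq.refl 16906)) (RangeOK.join (RangeOK.of_check ck858) (RangeOK.of_check ck859) (Eq.refl 16937)) (Eq.refl 16922)) (RangeOK.join (RangeOK.join (RangeOK.of_check ck860) (RangeOK.of_check ck861) (Eq.refl 16964)) (RangeOK.join (RangeOK.of_check ck862) (RangeOK.of_check ck863) (Eq.refl 16994)) (Eq.refl 16978)) (Eq.refl 16952)) (Eq.refl 16891)) (Eq.refl 16773)) (RangeOK.join (RangeOK.join (RangeOK.join (RangeOK.join (RangeOK.join (RangeOK.of_check ck864) (RangeOK.of_check ck865) (Eq.refl 17024)) (RangeOK.join (RangeOK.of_check ck866) (RangeOK.of_check ck867)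 (Eq.refl 17055)) (Eq.refl 17039)) (RangeOK.join (RangeOK.join (RangeOK.of_check ck868) (RangeOK.of_check ck869) (Eq.refl 17087)) (RangeOK.join (RangeOK.of_check ck870) (RangeOK.of_check ck871) (Eq.refl 17117)) (Eq.refl 17101)) (Eq.refl 17072)) (RangeOK.join (RangeOK.join (RangeOK.join (RangeOK.of_check ck872) (RangeOK.of_check ck873) (Eq.refl 17147)) (RangeOK.join (RangeOK.of_check ck874) (RangeOK.of_check ck875) (Eq.refl 17173)) (Eq.refl 17162)) (RangeOK.join (RangeOK.join (RangeOK.of_check ck876) (RangeOK.of_check ck877) (Eq.refl 17201)) (RangeOK.join (RangeOK.of_check ck878) (RangeOK.of_check ck879) (Eq.refl 17228)) (Eq.refl 17215)) (Eq.refl 17187)) (Eq.refl 17132)) (RangeOK.join (RangeOK.join (RangeOK.join (RangeOK.join (RangeOK.of_check ck880) (RangeOK.of_check ck881) (Eq.refl 17254)) (RangeOK.join (RangeOK.of_check ck882) (RangeOK.of_check ck883) (Eq.refl 17286)) (Eq.refl 17272)) (RangeOK.join (RangeOK.join (RangeOK.of_check ck884) (RangeOK.of_check ck885) (Eq.refl 17315)) (RangeOK.join (RangeOK.of_check ck886) (RangeOK.of_check ck887) (Eq.refl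 17342)) (Eq.refl 17327)) (Eq.refl 17301)) (RangeOK.join (RangeOK.join (RangeOK.join (RangeOK.of_check ck888) (RangeOK.of_check ck889) (Eq.refl 17370)) (RangeOK.join (RangeOK.of_check ck890) (RangeOK.of_check ck891) (Eq.refl 17398)) (Eq.refl 17384)) (RangeOK.join (RangeOK.join (RangeOK.of_check ck892) (RangeOK.of_check ck893) (Eq.refl 17424)) (RangeOK.join (RangeOK.of_check ck894) (RangeOK.of_check ck895) (Eq.refl 17451)) (Eq.refl 17437)) (Eq.refl 17410)) (Eq.refl 17357)) (Eq.refl 17242)) (Eq.refl 17009)

end Vale.Agent.Snaky.P3
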