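import Vale.Agent.Snaky.P3.Tbl

namespace Vale.Agent.Snaky.P3

theorem ck896 : checkRange tbl 17463 13 = 0 := by decide +kernel
theorem ck897 : checkRange tbl 17476 13 = 0 := by decide +kernel
theorem ck898 : checkRange tbl 17489 14 = 0 := by decide +kernel
theorem ck899 : checkRange tbl 17503 11 = 0 := by decide +kernel
theorem ck900 : checkRange tbl 17514 17 = 0 := by decide +kernel
theorem ck901 : checkRange tbl 17531 15 = 0 := by decide +kernel
theorem ck902 : checkRange tbl 17546 24 = 0 := by decide +kernel
theorem ck903 : checkRange tbl 17570 22 = 0 := by decide +kernel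
theorem ck904 : checkRange tbl 17592 30 = 0 := by decide +kernel
theorem ck905 : checkRange tbl 17622 17 = 0 := by decide +kernel
theorem ck906 : checkRange tbl 17639 24 = 0 := by decide +kernel
theorem ck907 : checkRange tbl 17663 25 = 0 := by decide +kernel
theorem ck908 : checkRange tbl 17688 24 = 0 := by decide +kernel
theorem ck909 : checkRange tbl 17712 26 = 0 := by decide +kernel
theorem ck910 : checkRange tbl 17738 26 = 0 := by decide +kernel
theorem ck911 : checkRange tbl 17764 30 = 0 := by decide +kernel
theorem ck912 : checkRange tbl 17794 30 = 0 := by decide +kernel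
theorem ck913 : checkRange tbl 17824 27 = 0 := by decide +kernel
theorem ck914 : checkRange tbl 17851 30 = 0 := by decide +kernel
theorem ck915 : checkRange tbl 17881 30 = 0 := by decide +kernel
theorem ck916 : checkRange tbl 17911 30 = 0 := by decide +kernel
theorem ck917 : checkRange tbl 17941 30 = 0 := by decide +kernel
theorem ck918 : checkRange tbl 17971 30 = 0 := by decide +kernel
theorem ck919 : checkRange tbl 18001 30 = 0 := by decide +kernel
theorem ck920 : checkRange tbl 18031 27 = 0 := by decide +kernel
theorem ck921 : checkRange tbl 18058 24 = 0 := by decide +kernel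
theorem ck922 : checkRange tbl 18082 24 = 0 := by decide +kernel
theorem ck923 : checkRange tbl 18106 26 = 0 := by decide +kernel
theorem ck924 : checkRange tbl 18132 27 = 0 := by decide +kernel
theorem ck925 : checkRange tbl 18159 25 = 0 := by decide +kernel
theorem ck926 : checkRange tbl 18184 30 = 0 := by decide +kernel
theorem ck927 : checkRange tbl 18214 26 = 0 := by decide +kernel
theorem ck928 : checkRange tbl 18240 27 = 0 := by decide +kernel
theorem ck929 : checkRange tbl 18267 26 = 0 := by decide +kernel
theorem ck930 : checkRange tbl 18293 25 = 0 := by decide +kernel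
theorem ck931 : checkRange tbl 18318 12 = 0 := by decide +kernel
theorem ck932 : checkRange tbl 18330 13 = 0 := by decide +kernel
theorem ck933 : checkRange tbl 18343 15 = 0 := by decide +kernel
theorem ck934 : checkRange tbl 18358 14 = 0 := by decide +kernel
theorem ck935 : checkRange tbl 18372 16 = 0 := by decide +kernel
theorem ck936 : checkRange tbl 18388 14 = 0 := by decide +kernel
theorem ck937 : checkRange tbl 18402 15 = 0 := by decide +kernel
theorem ck938 : checkRange tbl 18417 14 = 0 := by decide +kernel
theorem ck939 : checkRange tbl 18431 15 = 0 := by decide +kernel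
theorem ck940 : checkRange tbl 18446 14 = 0 := by decide +kernel
theorem ck941 : checkRange tbl 18460 15 = 0 := by decide +kernel
theorem ck942 : checkRange tbl 18475 12 = 0 := by decide +kernel
theorem ck943 : checkRange tbl 18487 14 = 0 := by decide +kernel
theorem ck944 : checkRange tbl 18501 15 = 0 := by decide +kernel
theorem ck945 : checkRange tbl 18516 18 = 0 := by decide +kernel
theorem ck946 : checkRange tbl 18534 14 = 0 := by decide +kernel
theorem ck947 : checkRange tbl 18548 14 = 0 := by decide +kernel
theorem ck948 : checkRange tbl 18562 12 = 0 := by decide +kernel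
theorem ck949 : checkRange tbl 18574 13 = 0 := by decide +kernel
theorem ck950 : checkRange tbl 18587 15 = 0 := by decide +kernel
theorem ck951 : checkRange tbl 18602 12 = 0 := by decide +kernel
theorem ck952 : checkRange tbl 18614 13 = 0 := by decide +kernel
theorem ck953 : checkRange tbl 18627 13 = 0 := by decide +kernel
theorem ck954 : checkRange tbl 18640 12 = 0 := by decide +kernel
theorem ck955 : checkRange tbl 18652 13 = 0 := by decide +kernel
theorem ck956 : checkRange tbl 18665 18 = 0 := by decide +kernel
theorem ck957 : checkRange tbl 18683 14 = 0 := by decide +kernel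
theorem ck958 : checkRange tbl 18697 16 = 0 := by decide +kernel
theorem ck959 : checkRange tbl 18713 13 = 0 := by decide +kernel

theorem rng14 : RangeOK tbl 17463 1263 := RangeOK.join (RangeOK.join (RangeOK.join (RangeOK.join (RangeOK.join (RangeOK.join (RangeOK.of_check ck896) (RangeOK.of_check ck897) (Eq.refl 17476)) (RangeOK.join (RangeOK.of_check ck898) (RangeOK.of_check ck899) (Eq.refl 17503)) (Eq.refl 17489)) (RangeOK.join (RangeOK.join (RangeOK.of_check ck900) (RangeOK.of_check ck901) (Eq.refl 17531)) (RangeOK.join (RangeOK.of_check ck902) (RangeOK.of_check ck903) (Eq.refl 17570)) (Eq.refl 17546)) (Eq.refl 17514)) (RangeOK.join (RangeOK.join (RangeOK.join (RangeOK.of_check ck904) (RangeOK.of_check ck905) (Eq.refl 17622)) (RangeOK.join (RangeOK.of_check ck906) (RangeOK.of_check ck907) (Eq.refl 17663)) (Eq.refl 17639)) (RangeOK.join (RangeOK.join (RangeOK.of_check ck908) (RangeOK.of_check ck909) (Eq.refl 17712)) (RangeOK.join (RangeOK.of_check ck910) (RangeOK.of_check ck911) (Eq.refl 17764)) (Eq.refl 17738)) (Eq.refl 17688)) (Eq.refl 17592)) (RangeOK.join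 (RangeOK.join (RangeOK.join (RangeOK.join (RangeOK.of_check ck912) (RangeOK.of_check ck913) (Eq.refl 17824)) (RangeOK.join (RangeOK.of_check ck914) (RangeOK.of_check ck915) (Eq.refl 17881)) (Eq.refl 17851)) (RangeOK.join (RangeOK.join (RangeOK.of_check ck916) (RangeOK.of_check ck917) (Eq.refl 17941)) (RangeOK.join (RangeOK.of_check ck918) (RangeOK.of_check ck919) (Eq.refl 18001)) (Eq.refl 17971)) (Eq.refl 17911)) (RangeOK.join (RangeOK.join (RangeOK.join (RangeOK.of_check ck920) (RangeOK.of_check ck921) (Eq.refl 18058)) (RangeOK.join (RangeOK.of_check ck922) (RangeOK.of_check ck923) (Eq.refl 18106)) (Eq.refl 18082)) (RangeOK.join (RangeOK.join (RangeOK.of_check ck924) (RangeOK.of_check ck925) (Eq.refl 18159)) (RangeOK.join (RangeOK.of_check ck926) (RangeOK.of_check ck927) (Eq.refl 18214)) (Eq.refl 18184)) (Eq.refl 18132)) (Eq.refl 18031)) (Eq.refl 17794)) (RangeOK.join (RangeOK.join (RangeOK.join (RangeOK.join (RangeOK.join (RangeOK.of_check ck928) (RangeOK.of_check ck929) (Eq.refl 18267)) (RangeOK.join (RangeOK.of_check ck930) (RangeOK.of_check ck931)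 (Eq.refl 18318)) (Eq.refl 18293)) (RangeOK.join (RangeOK.join (RangeOK.of_check ck932) (RangeOK.of_check ck933) (Eq.refl 18343)) (RangeOK.join (RangeOK.of_check ck934) (RangeOK.of_check ck935) (Eq.refl 18372)) (Eq.refl 18358)) (Eq.refl 18330)) (RangeOK.join (RangeOK.join (RangeOK.join (RangeOK.of_check ck936) (RangeOK.of_check ck937) (Eq.refl 18402)) (RangeOK.join (RangeOK.of_check ck938) (RangeOK.of_check ck939) (Eq.refl 18431)) (Eq.refl 18417)) (RangeOK.join (RangeOK.join (RangeOK.of_check ck940) (RangeOK.of_check ck941) (Eq.refl 18460)) (RangeOK.join (RangeOK.of_check ck942) (RangeOK.of_check ck943) (Eq.refl 18487)) (Eq.refl 18475)) (Eq.refl 18446)) (Eq.refl 18388)) (RangeOK.join (RangeOK.join (RangeOK.join (RangeOK.join (RangeOK.of_check ck944) (RangeOK.of_check ck945) (Eq.refl 18516)) (RangeOK.join (RangeOK.of_check ck946) (RangeOK.of_check ck947) (Eq.refl 18548)) (Eq.refl 18534)) (RangeOK.join (RangeOK.join (RangeOK.of_check ck948) (RangeOK.of_check ck949) (Eq.refl 18574)) (RangeOK.join (RangeOK.of_check ck950) (RangeOK.of_check ck951) (Eq.refl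 18602)) (Eq.refl 18587)) (Eq.refl 18562)) (RangeOK.join (RangeOK.join (RangeOK.join (RangeOK.of_check ck952) (RangeOK.of_check ck953) (Eq.refl 18627)) (RangeOK.join (RangeOK.of_check ck954) (RangeOK.of_check ck955) (Eq.refl 18652)) (Eq.refl 18640)) (RangeOK.join (RangeOK.join (RangeOK.of_check ck956) (RangeOK.of_check ck957) (Eq.refl 18683)) (RangeOK.join (RangeOK.of_check ck958) (RangeOK.of_check ck959) (Eq.refl 18713)) (Eq.refl 18697)) (Eq.refl 18665)) (Eq.refl 18614)) (Eq.refl 18501)) (Eq.refl 18240)

end Vale.Agent.Snaky.P3
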