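import Vale.Agent.Snaky.P3.Tbl

namespace Vale.Agent.Snaky.P3

theorem ck960 : checkRange tbl 18726 12 = 0 := by decide +kernel
theorem ck961 : checkRange tbl 18738 14 = 0 := by decide +kernel
theorem ck962 : checkRange tbl 18752 13 = 0 := by decide +kernel
theorem ck963 : checkRange tbl 18765 11 = 0 := by decide +kernel
theorem ck964 : checkRange tbl 18776 14 = 0 := by decide +kernel
theorem ck965 : checkRange tbl 18790 14 = 0 := by decide +kernel
theorem ck966 : checkRange tbl 18804 12 = 0 := by decide +kernel
theorem ck967 : checkRange tbl 18816 11 = 0 := by decide +kernel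
theorem ck968 : checkRange tbl 18827 12 = 0 := by decide +kernel
theorem ck969 : checkRange tbl 18839 10 = 0 := by decide +kernel
theorem ck970 : checkRange tbl 18849 15 = 0 := by decide +kernel
theorem ck971 : checkRange tbl 18864 18 = 0 := by decide +kernel
theorem ck972 : checkRange tbl 18882 26 = 0 := by decide +kernel
theorem ck973 : checkRange tbl 18908 28 = 0 := by decide +kernel
theorem ck974 : checkRange tbl 18936 14 = 0 := by decide +kernel
theorem ck975 : checkRange tbl 18950 16 = 0 := by decide +kernel
theorem ck976 : checkRange tbl 18966 19 = 0 := by decide +kernel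
theorem ck977 : checkRange tbl 18985 30 = 0 := by decide +kernel
theorem ck978 : checkRange tbl 19015 23 = 0 := by decide +kernel
theorem ck979 : checkRange tbl 19038 30 = 0 := by decide +kernel
theorem ck980 : checkRange tbl 19068 30 = 0 := by decide +kernel
theorem ck981 : checkRange tbl 19098 30 = 0 := by decide +kernel
theorem ck982 : checkRange tbl 19128 30 = 0 := by decide +kernel
theorem ck983 : checkRange tbl 19158 30 = 0 := by decide +kernel
theorem ck984 : checkRange tbl 19188 30 = 0 := by decide +kernel
theorem ck985 : checkRange tbl 19218 30 = 0 := by decide +kernel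
theorem ck986 : checkRange tbl 19248 30 = 0 := by decide +kernel
theorem ck987 : checkRange tbl 19278 30 = 0 := by decide +kernel
theorem ck988 : checkRange tbl 19308 30 = 0 := by decide +kernel
theorem ck989 : checkRange tbl 19338 30 = 0 := by decide +kernel
theorem ck990 : checkRange tbl 19368 26 = 0 := by decide +kernel
theorem ck991 : checkRange tbl 19394 29 = 0 := by decide +kernel
theorem ck992 : checkRange tbl 19423 11 = 0 := by decide +kernel
theorem ck993 : checkRange tbl 19434 13 = 0 := by decide +kernel
theorem ck994 : checkRange tbl 19447 12 = 0 := by decide +kernel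
theorem ck995 : checkRange tbl 19459 13 = 0 := by decide +kernel
theorem ck996 : checkRange tbl 19472 15 = 0 := by decide +kernel
theorem ck997 : checkRange tbl 19487 12 = 0 := by decide +kernel
theorem ck998 : checkRange tbl 19499 12 = 0 := by decide +kernel
theorem ck999 : checkRange tbl 19511 15 = 0 := by decide +kernel
theorem ck1000 : checkRange tbl 19526 12 = 0 := by decide +kernel
theorem ck1001 : checkRange tbl 19538 13 = 0 := by decide +kernel
theorem ck1002 : checkRange tbl 19551 14 = 0 := by decide +kernel
theorem ck1003 : checkRange tbl 19565 16 = 0 := by decide +kernel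
theorem ck1004 : checkRange tbl 19581 14 = 0 := by decide +kernel
theorem ck1005 : checkRange tbl 19595 13 = 0 := by decide +kernel
theorem ck1006 : checkRange tbl 19608 15 = 0 := by decide +kernel
theorem ck1007 : checkRange tbl 19623 10 = 0 := by decide +kernel
theorem ck1008 : checkRange tbl 19633 13 = 0 := by decide +kernel
theorem ck1009 : checkRange tbl 19646 10 = 0 := by decide +kernel
theorem ck1010 : checkRange tbl 19656 15 = 0 := by decide +kernel
theorem ck1011 : checkRange tbl 19671 12 = 0 := by decide +kernel
theorem ck1012 : checkRange tbl 19683 12 = 0 := by decide +kernel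
theorem ck1013 : checkRange tbl 19695 14 = 0 := by decide +kernel
theorem ck1014 : checkRange tbl 19709 8 = 0 := by decide +kernel
theorem ck1015 : checkRange tbl 19717 13 = 0 := by decide +kernel
theorem ck1016 : checkRange tbl 19730 10 = 0 := by decide +kernel
theorem ck1017 : checkRange tbl 19740 13 = 0 := by decide +kernel
theorem ck1018 : checkRange tbl 19753 15 = 0 := by decide +kernel
theorem ck1019 : checkRange tbl 19768 16 = 0 := by decide +kernel
theorem ck1020 : checkRange tbl 19784 18 = 0 := by decide +kernel
theorem ck1021 : checkRange tbl 19802 26 = 0 := by decide +kernel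
theorem ck1022 : checkRange tbl 19828 30 = 0 := by decide +kernel
theorem ck1023 : checkRange tbl 19858 26 = 0 := by decide +kernel

theorem rng15 : RangeOK tbl 18726 1158 := RangeOK.join (RangeOK.join (RangeOK.join (RangeOK.join (RangeOK.join (RangeOK.join (RangeOK.of_check ck960) (RangeOK.of_check ck961) (Eq.refl 18738)) (RangeOK.join (RangeOK.of_check ck962) (RangeOK.of_check ck963) (Eq.refl 18765)) (Eq.refl 18752)) (RangeOK.join (RangeOK.join (RangeOK.of_check ck964) (RangeOK.of_check ck965) (Eq.refl 18790)) (RangeOK.join (RangeOK.of_check ck966) (RangeOK.of_check ck967) (Eq.refl 18816)) (Eq.refl 18804)) (Eq.refl 18776)) (RangeOK.join (RangeOK.join (RangeOK.join (RangeOK.of_check ck968) (RangeOK.of_check ck969) (Eq.refl 18839)) (RangeOK.join (RangeOK.of_check ck970) (RangeOK.of_check ck971) (Eq.refl 18864)) (Eq.refl 18849)) (RangeOK.join (RangeOK.join (RangeOK.of_check ck972) (RangeOK.of_check ck973) (Eq.refl 18908)) (RangeOK.join (RangeOK.of_check ck974) (RangeOK.of_check ck975) (Eq.refl 18950)) (Eq.refl 18936)) (Eq.refl 18882)) (Eq.refl 18827))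 (RangeOK.join (RangeOK.join (RangeOK.join (RangeOK.join (RangeOK.of_check ck976) (RangeOK.of_check ck977) (Eq.refl 18985)) (RangeOK.join (RangeOK.of_check ck978) (RangeOK.of_check ck979) (Eq.refl 19038)) (Eq.refl 19015)) (RangeOK.join (RangeOK.join (RangeOK.of_check ck980) (RangeOK.of_check ck981) (Eq.refl 19098)) (RangeOK.join (RangeOK.of_check ck982) (RangeOK.of_check ck983) (Eq.refl 19158)) (Eq.refl 19128)) (Eq.refl 19068)) (RangeOK.join (RangeOK.join (RangeOK.join (RangeOK.of_check ck984) (RangeOK.of_check ck985) (Eq.refl 19218)) (RangeOK.join (RangeOK.of_check ck986) (RangeOK.of_check ck987) (Eq.refl 19278)) (Eq.refl 19248)) (RangeOK.join (RangeOK.join (RangeOK.of_check ck988) (RangeOK.of_check ck989) (Eq.refl 19338)) (RangeOK.join (RangeOK.of_check ck990) (RangeOK.of_check ck991) (Eq.refl 19394)) (Eq.refl 19368)) (Eq.refl 19308)) (Eq.refl 19188)) (Eq.refl 18966)) (RangeOK.join (RangeOK.join (RangeOK.join (RangeOK.join (RangeOK.join (RangeOK.of_check ck992) (RangeOK.of_check ck993) (Eq.refl 19434)) (RangeOK.join (RangeOK.of_check ck994) (RangeOK.of_check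 ck995) (Eq.refl 19459)) (Eq.refl 19447)) (RangeOK.join (RangeOK.join (RangeOK.of_check ck996) (RangeOK.of_check ck997) (Eq.refl 19487)) (RangeOK.join (RangeOK.of_check ck998) (RangeOK.of_check ck999) (Eq.refl 19511)) (Eq.refl 19499)) (Eq.refl 19472)) (RangeOK.join (RangeOK.join (RangeOK.join (RangeOK.of_check ck1000) (RangeOK.of_check ck1001) (Eq.refl 19538)) (RangeOK.join (RangeOK.of_check ck1002) (RangeOK.of_check ck1003) (Eq.refl 19565)) (Eq.refl 19551)) (RangeOK.join (RangeOK.join (RangeOK.of_check ck1004) (RangeOK.of_check ck1005) (Eq.refl 19595)) (RangeOK.join (RangeOK.of_check ck1006) (RangeOK.of_check ck1007) (Eq.refl 19623)) (Eq.refl 19608)) (Eq.refl 19581)) (Eq.refl 19526)) (RangeOK.join (RangeOK.join (RangeOK.join (RangeOK.join (RangeOK.of_check ck1008) (RangeOK.of_check ck1009) (Eq.refl 19646)) (RangeOK.join (RangeOK.of_check ck1010) (RangeOK.of_check ck1011) (Eq.refl 19671)) (Eq.refl 19656)) (RangeOK.join (RangeOK.join (RangeOK.of_check ck1012) (RangeOK.of_check ck1013) (Eq.refl 19695)) (RangeOK.join (RangeOK.of_check ck1014) (RangeOK.of_check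 ck1015) (Eq.refl 19717)) (Eq.refl 19709)) (Eq.refl 19683)) (RangeOK.join (RangeOK.join (RangeOK.join (RangeOK.of_check ck1016) (RangeOK.of_check ck1017) (Eq.refl 19740)) (RangeOK.join (RangeOK.of_check ck1018) (RangeOK.of_check ck1019) (Eq.refl 19768)) (Eq.refl 19753)) (RangeOK.join (RangeOK.join (RangeOK.of_check ck1020) (RangeOK.of_check ck1021) (Eq.refl 19802)) (RangeOK.join (RangeOK.of_check ck1022) (RangeOK.of_check ck1023) (Eq.refl 19858)) (Eq.refl 19828)) (Eq.refl 19784)) (Eq.refl 19730)) (Eq.refl 19633)) (Eq.refl 19423)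

end Vale.Agent.Snaky.P3
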