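import Vale.Agent.Snaky.P3.Tbl

namespace Vale.Agent.Snaky.P3

theorem ck1024 : checkRange tbl 19884 30 = 0 := by decide +kernel
theorem ck1025 : checkRange tbl 19914 28 = 0 := by decide +kernel
theorem ck1026 : checkRange tbl 19942 23 = 0 := by decide +kernel
theorem ck1027 : checkRange tbl 19965 27 = 0 := by decide +kernel
theorem ck1028 : checkRange tbl 19992 30 = 0 := by decide +kernel
theorem ck1029 : checkRange tbl 20022 30 = 0 := by decide +kernel
theorem ck1030 : checkRange tbl 20052 30 = 0 := by decide +kernel
theorem ck1031 : checkRange tbl 20082 30 = 0 := by decide +kernel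
theorem ck1032 : checkRange tbl 20112 13 = 0 := by decide +kernel
theorem ck1033 : checkRange tbl 20125 10 = 0 := by decide +kernel
theorem ck1034 : checkRange tbl 20135 9 = 0 := by decide +kernel
theorem ck1035 : checkRange tbl 20144 9 = 0 := by decide +kernel
theorem ck1036 : checkRange tbl 20153 8 = 0 := by decide +kernel
theorem ck1037 : checkRange tbl 20161 6 = 0 := by decide +kernel
theorem ck1038 : checkRange tbl 20167 9 = 0 := by decide +kernel
theorem ck1039 : checkRange tbl 20176 9 = 0 := by decide +kernel
theorem ck1040 : checkRange tbl 20185 9 = 0 := by decide +kernel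
theorem ck1041 : checkRange tbl 20194 9 = 0 := by decide +kernel
theorem ck1042 : checkRange tbl 20203 13 = 0 := by decide +kernel
theorem ck1043 : checkRange tbl 20216 13 = 0 := by decide +kernel
theorem ck1044 : checkRange tbl 20229 9 = 0 := by decide +kernel
theorem ck1045 : checkRange tbl 20238 9 = 0 := by decide +kernel
theorem ck1046 : checkRange tbl 20247 11 = 0 := by decide +kernel
theorem ck1047 : checkRange tbl 20258 9 = 0 := by decide +kernel
theorem ck1048 : checkRange tbl 20267 9 = 0 := by decide +kernel
theorem ck1049 : checkRange tbl 20276 9 = 0 := by decide +kernel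
theorem ck1050 : checkRange tbl 20285 12 = 0 := by decide +kernel
theorem ck1051 : checkRange tbl 20297 9 = 0 := by decide +kernel
theorem ck1052 : checkRange tbl 20306 5 = 0 := by decide +kernel
theorem ck1053 : checkRange tbl 20311 6 = 0 := by decide +kernel
theorem ck1054 : checkRange tbl 20317 9 = 0 := by decide +kernel
theorem ck1055 : checkRange tbl 20326 11 = 0 := by decide +kernel
theorem ck1056 : checkRange tbl 20337 22 = 0 := by decide +kernel
theorem ck1057 : checkRange tbl 20359 23 = 0 := by decide +kernel
theorem ck1058 : checkRange tbl 20382 14 = 0 := by decide +kernel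
theorem ck1059 : checkRange tbl 20396 16 = 0 := by decide +kernel
theorem ck1060 : checkRange tbl 20412 30 = 0 := by decide +kernel
theorem ck1061 : checkRange tbl 20442 30 = 0 := by decide +kernel
theorem ck1062 : checkRange tbl 20472 30 = 0 := by decide +kernel
theorem ck1063 : checkRange tbl 20502 30 = 0 := by decide +kernel
theorem ck1064 : checkRange tbl 20532 25 = 0 := by decide +kernel
theorem ck1065 : checkRange tbl 20557 6 = 0 := by decide +kernel
theorem ck1066 : checkRange tbl 20563 6 = 0 := by decide +kernel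
theorem ck1067 : checkRange tbl 20569 7 = 0 := by decide +kernel
theorem ck1068 : checkRange tbl 20576 8 = 0 := by decide +kernel
theorem ck1069 : checkRange tbl 20584 7 = 0 := by decide +kernel
theorem ck1070 : checkRange tbl 20591 9 = 0 := by decide +kernel
theorem ck1071 : checkRange tbl 20600 10 = 0 := by decide +kernel
theorem ck1072 : checkRange tbl 20610 7 = 0 := by decide +kernel
theorem ck1073 : checkRange tbl 20617 9 = 0 := by decide +kernel
theorem ck1074 : checkRange tbl 20626 8 = 0 := by decide +kernel
theorem ck1075 : checkRange tbl 20634 13 = 0 := by decide +kernel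
theorem ck1076 : checkRange tbl 20647 7 = 0 := by decide +kernel
theorem ck1077 : checkRange tbl 20654 20 = 0 := by decide +kernel
theorem ck1078 : checkRange tbl 20674 30 = 0 := by decide +kernel
theorem ck1079 : checkRange tbl 20704 30 = 0 := by decide +kernel
theorem ck1080 : checkRange tbl 20734 26 = 0 := by decide +kernel
theorem ck1081 : checkRange tbl 20760 7 = 0 := by decide +kernel
theorem ck1082 : checkRange tbl 20767 8 = 0 := by decide +kernel
theorem ck1083 : checkRange tbl 20775 7 = 0 := by decide +kernel
theorem ck1084 : checkRange tbl 20782 7 = 0 := by decide +kernel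
theorem ck1085 : checkRange tbl 20789 7 = 0 := by decide +kernel
theorem ck1086 : checkRange tbl 20796 8 = 0 := by decide +kernel
theorem ck1087 : checkRange tbl 20804 30 = 0 := by decide +kernel

theorem rng16 : RangeOK tbl 19884 950 := RangeOK.join (RangeOK.join (RangeOK.join (RangeOK.join (RangeOK.join (RangeOK.join (RangeOK.of_check ck1024) (RangeOK.of_check ck1025) (Eq.refl 19914)) (RangeOK.join (RangeOK.of_check ck1026) (RangeOK.of_check ck1027) (Eq.refl 19965)) (Eq.refl 19942)) (RangeOK.join (RangeOK.join (RangeOK.of_check ck1028) (RangeOK.of_check ck1029) (Eq.refl 20022)) (RangeOK.join (RangeOK.of_check ck1030) (RangeOK.of_check ck1031) (Eq.refl 20082)) (Eq.refl 20052)) (Eq.refl 19992)) (RangeOK.join (RangeOK.join (RangeOK.join (RangeOK.of_check ck1032) (RangeOK.of_check ck1033) (Eq.refl 20125)) (RangeOK.join (RangeOK.of_check ck1034) (RangeOK.of_check ck1035) (Eq.refl 20144)) (Eq.refl 20135)) (RangeOK.join (RangeOK.join (RangeOK.of_check ck1036) (RangeOK.of_check ck1037) (Eq.refl 20161)) (RangeOK.join (RangeOK.of_check ck1038)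 (RangeOK.of_check ck1039) (Eq.refl 20176)) (Eq.refl 20167)) (Eq.refl 20153)) (Eq.refl 20112)) (RangeOK.join (RangeOK.join (RangeOK.join (RangeOK.join (RangeOK.of_check ck1040) (RangeOK.of_check ck1041) (Eq.refl 20194)) (RangeOK.join (RangeOK.of_check ck1042) (RangeOK.of_check ck1043) (Eq.refl 20216)) (Eq.refl 20203)) (RangeOK.join (RangeOK.join (RangeOK.of_check ck1044) (RangeOK.of_check ck1045) (Eq.refl 20238)) (RangeOK.join (RangeOK.of_check ck1046) (RangeOK.of_check ck1047) (Eq.refl 20258)) (Eq.refl 20247)) (Eq.refl 20229)) (RangeOK.join (RangeOK.join (RangeOK.join (RangeOK.of_check ck1048) (RangeOK.of_check ck1049) (Eq.refl 20276)) (RangeOK.join (RangeOK.of_check ck1050) (RangeOK.of_check ck1051) (Eq.refl 20297)) (Eq.refl 20285)) (RangeOK.join (RangeOK.join (RangeOK.of_check ck1052) (RangeOK.of_check ck1053) (Eq.refl 20311)) (RangeOK.join (RangeOK.of_check ck1054) (RangeOK.of_check ck1055) (Eq.refl 20326)) (Eq.refl 20317)) (Eq.refl 20306)) (Eq.refl 20267)) (Eq.refl 20185)) (RangeOK.join (RangeOK.join (RangeOK.join (RangeOK.join (RangeOK.join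 (RangeOK.of_check ck1056) (RangeOK.of_check ck1057) (Eq.refl 20359)) (RangeOK.join (RangeOK.of_check ck1058) (RangeOK.of_check ck1059) (Eq.refl 20396)) (Eq.refl 20382)) (RangeOK.join (RangeOK.join (RangeOK.of_check ck1060) (RangeOK.of_check ck1061) (Eq.refl 20442)) (RangeOK.join (RangeOK.of_check ck1062) (RangeOK.of_check ck1063) (Eq.refl 20502)) (Eq.refl 20472)) (Eq.refl 20412)) (RangeOK.join (RangeOK.join (RangeOK.join (RangeOK.of_check ck1064) (RangeOK.of_check ck1065) (Eq.refl 20557)) (RangeOK.join (RangeOK.of_check ck1066) (RangeOK.of_check ck1067) (Eq.refl 20569)) (Eq.refl 20563)) (RangeOK.join (RangeOK.join (RangeOK.of_check ck1068) (RangeOK.of_check ck1069) (Eq.refl 20584)) (RangeOK.join (RangeOK.of_check ck1070) (RangeOK.of_check ck1071) (Eq.refl 20600)) (Eq.refl 20591)) (Eq.refl 20576)) (Eq.refl 20532)) (RangeOK.join (RangeOK.join (RangeOK.join (RangeOK.join (RangeOK.of_check ck1072) (RangeOK.of_check ck1073) (Eq.refl 20617)) (RangeOK.join (RangeOK.of_check ck1074) (RangeOK.of_check ck1075) (Eq.refl 20634)) (Eq.refl 20626))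 (RangeOK.join (RangeOK.join (RangeOK.of_check ck1076) (RangeOK.of_check ck1077) (Eq.refl 20654)) (RangeOK.join (RangeOK.of_check ck1078) (RangeOK.of_check ck1079) (Eq.refl 20704)) (Eq.refl 20674)) (Eq.refl 20647)) (RangeOK.join (RangeOK.join (RangeOK.join (RangeOK.of_check ck1080) (RangeOK.of_check ck1081) (Eq.refl 20760)) (RangeOK.join (RangeOK.of_check ck1082) (RangeOK.of_check ck1083) (Eq.refl 20775)) (Eq.refl 20767)) (RangeOK.join (RangeOK.join (RangeOK.of_check ck1084) (RangeOK.of_check ck1085) (Eq.refl 20789)) (RangeOK.join (RangeOK.of_check ck1086) (RangeOK.of_check ck1087) (Eq.refl 20804)) (Eq.refl 20796)) (Eq.refl 20782)) (Eq.refl 20734)) (Eq.refl 20610)) (Eq.refl 20337)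

end Vale.Agent.Snaky.P3
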