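import Vale.Agent.Snaky.P3.Tbl

namespace Vale.Agent.Snaky.P3

theorem ck128 : checkRange tbl 2451 23 = 0 := by decide +kernel
theorem ck129 : checkRange tbl 2474 23 = 0 := by decide +kernel
theorem ck130 : checkRange tbl 2497 22 = 0 := by decide +kernel
theorem ck131 : checkRange tbl 2519 26 = 0 := by decide +kernel
theorem ck132 : checkRange tbl 2545 20 = 0 := by decide +kernel
theorem ck133 : checkRange tbl 2565 25 = 0 := by decide +kernel
theorem ck134 : checkRange tbl 2590 28 = 0 := by decide +kernel
theorem ck135 : checkRange tbl 2618 28 = 0 := by decide +kernel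
theorem ck136 : checkRange tbl 2646 25 = 0 := by decide +kernel
theorem ck137 : checkRange tbl 2671 28 = 0 := by decide +kernel
theorem ck138 : checkRange tbl 2699 27 = 0 := by decide +kernel
theorem ck139 : checkRange tbl 2726 24 = 0 := by decide +kernel
theorem ck140 : checkRange tbl 2750 26 = 0 := by decide +kernel
theorem ck141 : checkRange tbl 2776 26 = 0 := by decide +kernel
theorem ck142 : checkRange tbl 2802 23 = 0 := by decide +kernel
theorem ck143 : checkRange tbl 2825 29 = 0 := by decide +kernel
theorem ck144 : checkRange tbl 2854 22 = 0 := by decide +kernel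
theorem ck145 : checkRange tbl 2876 26 = 0 := by decide +kernel
theorem ck146 : checkRange tbl 2902 26 = 0 := by decide +kernel
theorem ck147 : checkRange tbl 2928 25 = 0 := by decide +kernel
theorem ck148 : checkRange tbl 2953 25 = 0 := by decide +kernel
theorem ck149 : checkRange tbl 2978 30 = 0 := by decide +kernel
theorem ck150 : checkRange tbl 3008 21 = 0 := by decide +kernel
theorem ck151 : checkRange tbl 3029 23 = 0 := by decide +kernel
theorem ck152 : checkRange tbl 3052 20 = 0 := by decide +kernel
theorem ck153 : checkRange tbl 3072 17 = 0 := by decide +kernel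
theorem ck154 : checkRange tbl 3089 18 = 0 := by decide +kernel
theorem ck155 : checkRange tbl 3107 18 = 0 := by decide +kernel
theorem ck156 : checkRange tbl 3125 18 = 0 := by decide +kernel
theorem ck157 : checkRange tbl 3143 17 = 0 := by decide +kernel
theorem ck158 : checkRange tbl 3160 17 = 0 := by decide +kernel
theorem ck159 : checkRange tbl 3177 19 = 0 := by decide +kernel
theorem ck160 : checkRange tbl 3196 18 = 0 := by decide +kernel
theorem ck161 : checkRange tbl 3214 19 = 0 := by decide +kernel
theorem ck162 : checkRange tbl 3233 19 = 0 := by decide +kernel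
theorem ck163 : checkRange tbl 3252 19 = 0 := by decide +kernel
theorem ck164 : checkRange tbl 3271 18 = 0 := by decide +kernel
theorem ck165 : checkRange tbl 3289 19 = 0 := by decide +kernel
theorem ck166 : checkRange tbl 3308 16 = 0 := by decide +kernel
theorem ck167 : checkRange tbl 3324 19 = 0 := by decide +kernel
theorem ck168 : checkRange tbl 3343 18 = 0 := by decide +kernel
theorem ck169 : checkRange tbl 3361 18 = 0 := by decide +kernel
theorem ck170 : checkRange tbl 3379 19 = 0 := by decide +kernel
theorem ck171 : checkRange tbl 3398 19 = 0 := by decide +kernel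
theorem ck172 : checkRange tbl 3417 17 = 0 := by decide +kernel
theorem ck173 : checkRange tbl 3434 18 = 0 := by decide +kernel
theorem ck174 : checkRange tbl 3452 19 = 0 := by decide +kernel
theorem ck175 : checkRange tbl 3471 19 = 0 := by decide +kernel
theorem ck176 : checkRange tbl 3490 19 = 0 := by decide +kernel
theorem ck177 : checkRange tbl 3509 19 = 0 := by decide +kernel
theorem ck178 : checkRange tbl 3528 19 = 0 := by decide +kernel
theorem ck179 : checkRange tbl 3547 20 = 0 := by decide +kernel
theorem ck180 : checkRange tbl 3567 19 = 0 := by decide +kernel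
theorem ck181 : checkRange tbl 3586 19 = 0 := by decide +kernel
theorem ck182 : checkRange tbl 3605 19 = 0 := by decide +kernel
theorem ck183 : checkRange tbl 3624 19 = 0 := by decide +kernel
theorem ck184 : checkRange tbl 3643 20 = 0 := by decide +kernel
theorem ck185 : checkRange tbl 3663 18 = 0 := by decide +kernel
theorem ck186 : checkRange tbl 3681 18 = 0 := by decide +kernel
theorem ck187 : checkRange tbl 3699 19 = 0 := by decide +kernel
theorem ck188 : checkRange tbl 3718 19 = 0 := by decide +kernel
theorem ck189 : checkRange tbl 3737 18 = 0 := by decide +kernel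
theorem ck190 : checkRange tbl 3755 18 = 0 := by decide +kernel
theorem ck191 : checkRange tbl 3773 17 = 0 := by decide +kernel

theorem rng2 : RangeOK tbl 2451 1339 := RangeOK.join (RangeOK.join (RangeOK.join (RangeOK.join (RangeOK.join (RangeOK.join (RangeOK.of_check ck128) (RangeOK.of_check ck129) (Eq.refl 2474)) (RangeOK.join (RangeOK.of_check ck130) (RangeOK.of_check ck131) (Eq.refl 2519)) (Eq.refl 2497)) (RangeOK.join (RangeOK.join (RangeOK.of_check ck132) (RangeOK.of_check ck133) (Eq.refl 2565)) (RangeOK.join (RangeOK.of_check ck134) (RangeOK.of_check ck135) (Eq.refl 2618)) (Eq.refl 2590)) (Eq.refl 2545)) (RangeOK.join (RangeOK.join (RangeOK.join (RangeOK.of_check ck136) (RangeOK.of_check ck137) (Eq.refl 2671)) (RangeOK.join (RangeOK.of_check ck138) (RangeOK.of_check ck139) (Eq.refl 2726)) (Eq.refl 2699)) (RangeOK.join (RangeOK.join (RangeOK.of_check ck140) (RangeOK.of_check ck141) (Eq.refl 2776)) (RangeOK.join (RangeOK.of_check ck142) (RangeOK.of_check ck143) (Eq.refl 2825)) (Eq.refl 2802)) (Eq.refl 2750)) (Eq.refl 2646)) (RangeOK.join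 (RangeOK.join (RangeOK.join (RangeOK.join (RangeOK.of_check ck144) (RangeOK.of_check ck145) (Eq.refl 2876)) (RangeOK.join (RangeOK.of_check ck146) (RangeOK.of_check ck147) (Eq.refl 2928)) (Eq.refl 2902)) (RangeOK.join (RangeOK.join (RangeOK.of_check ck148) (RangeOK.of_check ck149) (Eq.refl 2978)) (RangeOK.join (RangeOK.of_check ck150) (RangeOK.of_check ck151) (Eq.refl 3029)) (Eq.refl 3008)) (Eq.refl 2953)) (RangeOK.join (RangeOK.join (RangeOK.join (RangeOK.of_check ck152) (RangeOK.of_check ck153) (Eq.refl 3072)) (RangeOK.join (RangeOK.of_check ck154) (RangeOK.of_check ck155) (Eq.refl 3107)) (Eq.refl 3089)) (RangeOK.join (RangeOK.join (RangeOK.of_check ck156) (RangeOK.of_check ck157) (Eq.refl 3143)) (RangeOK.join (RangeOK.of_check ck158) (RangeOK.of_check ck159) (Eq.refl 3177)) (Eq.refl 3160)) (Eq.refl 3125)) (Eq.refl 3052)) (Eq.refl 2854)) (RangeOK.join (RangeOK.join (RangeOK.join (RangeOK.join (RangeOK.join (RangeOK.of_check ck160) (RangeOK.of_check ck161) (Eq.refl 3214)) (RangeOK.join (RangeOK.of_check ck162) (RangeOK.of_check ck163)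 (Eq.refl 3252)) (Eq.refl 3233)) (RangeOK.join (RangeOK.join (RangeOK.of_check ck164) (RangeOK.of_check ck165) (Eq.refl 3289)) (RangeOK.join (RangeOK.of_check ck166) (RangeOK.of_check ck167) (Eq.refl 3324)) (Eq.refl 3308)) (Eq.refl 3271)) (RangeOK.join (RangeOK.join (RangeOK.join (RangeOK.of_check ck168) (RangeOK.of_check ck169) (Eq.refl 3361)) (RangeOK.join (RangeOK.of_check ck170) (RangeOK.of_check ck171) (Eq.refl 3398)) (Eq.refl 3379)) (RangeOK.join (RangeOK.join (RangeOK.of_check ck172) (RangeOK.of_check ck173) (Eq.refl 3434)) (RangeOK.join (RangeOK.of_check ck174) (RangeOK.of_check ck175) (Eq.refl 3471)) (Eq.refl 3452)) (Eq.refl 3417)) (Eq.refl 3343)) (RangeOK.join (RangeOK.join (RangeOK.join (RangeOK.join (RangeOK.of_check ck176) (RangeOK.of_check ck177) (Eq.refl 3509)) (RangeOK.join (RangeOK.of_check ck178) (RangeOK.of_check ck179) (Eq.refl 3547)) (Eq.refl 3528)) (RangeOK.join (RangeOK.join (RangeOK.of_check ck180) (RangeOK.of_check ck181) (Eq.refl 3586)) (RangeOK.join (RangeOK.of_check ck182) (RangeOK.of_check ck183) (Eq.refl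 3624)) (Eq.refl 3605)) (Eq.refl 3567)) (RangeOK.join (RangeOK.join (RangeOK.join (RangeOK.of_check ck184) (RangeOK.of_check ck185) (Eq.refl 3663)) (RangeOK.join (RangeOK.of_check ck186) (RangeOK.of_check ck187) (Eq.refl 3699)) (Eq.refl 3681)) (RangeOK.join (RangeOK.join (RangeOK.of_check ck188) (RangeOK.of_check ck189) (Eq.refl 3737)) (RangeOK.join (RangeOK.of_check ck190) (RangeOK.of_check ck191) (Eq.refl 3773)) (Eq.refl 3755)) (Eq.refl 3718)) (Eq.refl 3643)) (Eq.refl 3490)) (Eq.refl 3196)

end Vale.Agent.Snaky.P3
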