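import Vale.Agent.Snaky.P3.Tbl

namespace Vale.Agent.Snaky.P3

theorem ck192 : checkRange tbl 3790 17 = 0 := by decide +kernel
theorem ck193 : checkRange tbl 3807 20 = 0 := by decide +kernel
theorem ck194 : checkRange tbl 3827 18 = 0 := by decide +kernel
theorem ck195 : checkRange tbl 3845 16 = 0 := by decide +kernel
theorem ck196 : checkRange tbl 3861 19 = 0 := by decide +kernel
theorem ck197 : checkRange tbl 3880 17 = 0 := by decide +kernel
theorem ck198 : checkRange tbl 3897 17 = 0 := by decide +kernel
theorem ck199 : checkRange tbl 3914 17 = 0 := by decide +kernel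
theorem ck200 : checkRange tbl 3931 20 = 0 := by decide +kernel
theorem ck201 : checkRange tbl 3951 19 = 0 := by decide +kernel
theorem ck202 : checkRange tbl 3970 18 = 0 := by decide +kernel
theorem ck203 : checkRange tbl 3988 19 = 0 := by decide +kernel
theorem ck204 : checkRange tbl 4007 18 = 0 := by decide +kernel
theorem ck205 : checkRange tbl 4025 18 = 0 := by decide +kernel
theorem ck206 : checkRange tbl 4043 19 = 0 := by decide +kernel
theorem ck207 : checkRange tbl 4062 19 = 0 := by decide +kernel
theorem ck208 : checkRange tbl 4081 17 = 0 := by decide +kernel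
theorem ck209 : checkRange tbl 4098 18 = 0 := by decide +kernel
theorem ck210 : checkRange tbl 4116 19 = 0 := by decide +kernel
theorem ck211 : checkRange tbl 4135 18 = 0 := by decide +kernel
theorem ck212 : checkRange tbl 4153 17 = 0 := by decide +kernel
theorem ck213 : checkRange tbl 4170 17 = 0 := by decide +kernel
theorem ck214 : checkRange tbl 4187 18 = 0 := by decide +kernel
theorem ck215 : checkRange tbl 4205 17 = 0 := by decide +kernel
theorem ck216 : checkRange tbl 4222 18 = 0 := by decide +kernel
theorem ck217 : checkRange tbl 4240 18 = 0 := by decide +kernel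
theorem ck218 : checkRange tbl 4258 17 = 0 := by decide +kernel
theorem ck219 : checkRange tbl 4275 18 = 0 := by decide +kernel
theorem ck220 : checkRange tbl 4293 18 = 0 := by decide +kernel
theorem ck221 : checkRange tbl 4311 17 = 0 := by decide +kernel
theorem ck222 : checkRange tbl 4328 16 = 0 := by decide +kernel
theorem ck223 : checkRange tbl 4344 19 = 0 := by decide +kernel
theorem ck224 : checkRange tbl 4363 16 = 0 := by decide +kernel
theorem ck225 : checkRange tbl 4379 19 = 0 := by decide +kernel
theorem ck226 : checkRange tbl 4398 16 = 0 := by decide +kernel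
theorem ck227 : checkRange tbl 4414 18 = 0 := by decide +kernel
theorem ck228 : checkRange tbl 4432 17 = 0 := by decide +kernel
theorem ck229 : checkRange tbl 4449 16 = 0 := by decide +kernel
theorem ck230 : checkRange tbl 4465 18 = 0 := by decide +kernel
theorem ck231 : checkRange tbl 4483 19 = 0 := by decide +kernel
theorem ck232 : checkRange tbl 4502 19 = 0 := by decide +kernel
theorem ck233 : checkRange tbl 4521 16 = 0 := by decide +kernel
theorem ck234 : checkRange tbl 4537 21 = 0 := by decide +kernel
theorem ck235 : checkRange tbl 4558 20 = 0 := by decide +kernel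
theorem ck236 : checkRange tbl 4578 20 = 0 := by decide +kernel
theorem ck237 : checkRange tbl 4598 20 = 0 := by decide +kernel
theorem ck238 : checkRange tbl 4618 17 = 0 := by decide +kernel
theorem ck239 : checkRange tbl 4635 20 = 0 := by decide +kernel
theorem ck240 : checkRange tbl 4655 17 = 0 := by decide +kernel
theorem ck241 : checkRange tbl 4672 16 = 0 := by decide +kernel
theorem ck242 : checkRange tbl 4688 19 = 0 := by decide +kernel
theorem ck243 : checkRange tbl 4707 18 = 0 := by decide +kernel
theorem ck244 : checkRange tbl 4725 21 = 0 := by decide +kernel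
theorem ck245 : checkRange tbl 4746 20 = 0 := by decide +kernel
theorem ck246 : checkRange tbl 4766 18 = 0 := by decide +kernel
theorem ck247 : checkRange tbl 4784 19 = 0 := by decide +kernel
theorem ck248 : checkRange tbl 4803 18 = 0 := by decide +kernel
theorem ck249 : checkRange tbl 4821 25 = 0 := by decide +kernel
theorem ck250 : checkRange tbl 4846 17 = 0 := by decide +kernel
theorem ck251 : checkRange tbl 4863 17 = 0 := by decide +kernel
theorem ck252 : checkRange tbl 4880 17 = 0 := by decide +kernel
theorem ck253 : checkRange tbl 4897 21 = 0 := by decide +kernel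
theorem ck254 : checkRange tbl 4918 20 = 0 := by decide +kernel
theorem ck255 : checkRange tbl 4938 22 = 0 := by decide +kernel

theorem rng3 : RangeOK tbl 3790 1170 := RangeOK.join (RangeOK.join (RangeOK.join (RangeOK.join (RangeOK.join (RangeOK.join (RangeOK.of_check ck192) (RangeOK.of_check ck193) (Eq.refl 3807)) (RangeOK.join (RangeOK.of_check ck194) (RangeOK.of_check ck195) (Eq.refl 3845)) (Eq.refl 3827)) (RangeOK.join (RangeOK.join (RangeOK.of_check ck196) (RangeOK.of_check ck197) (Eq.refl 3880)) (RangeOK.join (RangeOK.of_check ck198) (RangeOK.of_check ck199) (Eq.refl 3914)) (Eq.refl 3897)) (Eq.refl 3861)) (RangeOK.join (RangeOK.join (RangeOK.join (RangeOK.of_check ck200) (RangeOK.of_check ck201) (Eq.refl 3951)) (RangeOK.join (RangeOK.of_check ck202) (RangeOK.of_check ck203) (Eq.refl 3988)) (Eq.refl 3970)) (RangeOK.join (RangeOK.join (RangeOK.of_check ck204) (RangeOK.of_check ck205) (Eq.refl 4025)) (RangeOK.join (RangeOK.of_check ck206) (RangeOK.of_check ck207) (Eq.refl 4062)) (Eq.refl 4043)) (Eq.refl 4007)) (Eq.refl 3931)) (RangeOK.join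 (RangeOK.join (RangeOK.join (RangeOK.join (RangeOK.of_check ck208) (RangeOK.of_check ck209) (Eq.refl 4098)) (RangeOK.join (RangeOK.of_check ck210) (RangeOK.of_check ck211) (Eq.refl 4135)) (Eq.refl 4116)) (RangeOK.join (RangeOK.join (RangeOK.of_check ck212) (RangeOK.of_check ck213) (Eq.refl 4170)) (RangeOK.join (RangeOK.of_check ck214) (RangeOK.of_check ck215) (Eq.refl 4205)) (Eq.refl 4187)) (Eq.refl 4153)) (RangeOK.join (RangeOK.join (RangeOK.join (RangeOK.of_check ck216) (RangeOK.of_check ck217) (Eq.refl 4240)) (RangeOK.join (RangeOK.of_check ck218) (RangeOK.of_check ck219) (Eq.refl 4275)) (Eq.refl 4258)) (RangeOK.join (RangeOK.join (RangeOK.of_check ck220) (RangeOK.of_check ck221) (Eq.refl 4311)) (RangeOK.join (RangeOK.of_check ck222) (RangeOK.of_check ck223) (Eq.refl 4344)) (Eq.refl 4328)) (Eq.refl 4293)) (Eq.refl 4222)) (Eq.refl 4081)) (RangeOK.join (RangeOK.join (RangeOK.join (RangeOK.join (RangeOK.join (RangeOK.of_check ck224) (RangeOK.of_check ck225) (Eq.refl 4379)) (RangeOK.join (RangeOK.of_check ck226) (RangeOK.of_check ck227)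 (Eq.refl 4414)) (Eq.refl 4398)) (RangeOK.join (RangeOK.join (RangeOK.of_check ck228) (RangeOK.of_check ck229) (Eq.refl 4449)) (RangeOK.join (RangeOK.of_check ck230) (RangeOK.of_check ck231) (Eq.refl 4483)) (Eq.refl 4465)) (Eq.refl 4432)) (RangeOK.join (RangeOK.join (RangeOK.join (RangeOK.of_check ck232) (RangeOK.of_check ck233) (Eq.refl 4521)) (RangeOK.join (RangeOK.of_check ck234) (RangeOK.of_check ck235) (Eq.refl 4558)) (Eq.refl 4537)) (RangeOK.join (RangeOK.join (RangeOK.of_check ck236) (RangeOK.of_check ck237) (Eq.refl 4598)) (RangeOK.join (RangeOK.of_check ck238) (RangeOK.of_check ck239) (Eq.refl 4635)) (Eq.refl 4618)) (Eq.refl 4578)) (Eq.refl 4502)) (RangeOK.join (RangeOK.join (RangeOK.join (RangeOK.join (RangeOK.of_check ck240) (RangeOK.of_check ck241) (Eq.refl 4672)) (RangeOK.join (RangeOK.of_check ck242) (RangeOK.of_check ck243) (Eq.refl 4707)) (Eq.refl 4688)) (RangeOK.join (RangeOK.join (RangeOK.of_check ck244) (RangeOK.of_check ck245) (Eq.refl 4746)) (RangeOK.join (RangeOK.of_check ck246) (RangeOK.of_check ck247) (Eq.refl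 4784)) (Eq.refl 4766)) (Eq.refl 4725)) (RangeOK.join (RangeOK.join (RangeOK.join (RangeOK.of_check ck248) (RangeOK.of_check ck249) (Eq.refl 4821)) (RangeOK.join (RangeOK.of_check ck250) (RangeOK.of_check ck251) (Eq.refl 4863)) (Eq.refl 4846)) (RangeOK.join (RangeOK.join (RangeOK.of_check ck252) (RangeOK.of_check ck253) (Eq.refl 4897)) (RangeOK.join (RangeOK.of_check ck254) (RangeOK.of_check ck255) (Eq.refl 4938)) (Eq.refl 4918)) (Eq.refl 4880)) (Eq.refl 4803)) (Eq.refl 4655)) (Eq.refl 4363)

end Vale.Agent.Snaky.P3
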