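import Vale.Agent.Snaky.P3.Tbl

namespace Vale.Agent.Snaky.P3

theorem ck256 : checkRange tbl 4960 21 = 0 := by decide +kernel
theorem ck257 : checkRange tbl 4981 17 = 0 := by decide +kernel
theorem ck258 : checkRange tbl 4998 23 = 0 := by decide +kernel
theorem ck259 : checkRange tbl 5021 22 = 0 := by decide +kernel
theorem ck260 : checkRange tbl 5043 23 = 0 := by decide +kernel
theorem ck261 : checkRange tbl 5066 26 = 0 := by decide +kernel
theorem ck262 : checkRange tbl 5092 29 = 0 := by decide +kernel
theorem ck263 : checkRange tbl 5121 26 = 0 := by decide +kernel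
theorem ck264 : checkRange tbl 5147 24 = 0 := by decide +kernel
theorem ck265 : checkRange tbl 5171 26 = 0 := by decide +kernel
theorem ck266 : checkRange tbl 5197 23 = 0 := by decide +kernel
theorem ck267 : checkRange tbl 5220 23 = 0 := by decide +kernel
theorem ck268 : checkRange tbl 5243 24 = 0 := by decide +kernel
theorem ck269 : checkRange tbl 5267 25 = 0 := by decide +kernel
theorem ck270 : checkRange tbl 5292 27 = 0 := by decide +kernel
theorem ck271 : checkRange tbl 5319 28 = 0 := by decide +kernel
theorem ck272 : checkRange tbl 5347 27 = 0 := by decide +kernel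
theorem ck273 : checkRange tbl 5374 25 = 0 := by decide +kernel
theorem ck274 : checkRange tbl 5399 25 = 0 := by decide +kernel
theorem ck275 : checkRange tbl 5424 24 = 0 := by decide +kernel
theorem ck276 : checkRange tbl 5448 25 = 0 := by decide +kernel
theorem ck277 : checkRange tbl 5473 23 = 0 := by decide +kernel
theorem ck278 : checkRange tbl 5496 24 = 0 := by decide +kernel
theorem ck279 : checkRange tbl 5520 26 = 0 := by decide +kernel
theorem ck280 : checkRange tbl 5546 26 = 0 := by decide +kernel
theorem ck281 : checkRange tbl 5572 28 = 0 := by decide +kernel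
theorem ck282 : checkRange tbl 5600 17 = 0 := by decide +kernel
theorem ck283 : checkRange tbl 5617 21 = 0 := by decide +kernel
theorem ck284 : checkRange tbl 5638 29 = 0 := by decide +kernel
theorem ck285 : checkRange tbl 5667 26 = 0 := by decide +kernel
theorem ck286 : checkRange tbl 5693 30 = 0 := by decide +kernel
theorem ck287 : checkRange tbl 5723 29 = 0 := by decide +kernel
theorem ck288 : checkRange tbl 5752 27 = 0 := by decide +kernel
theorem ck289 : checkRange tbl 5779 26 = 0 := by decide +kernel
theorem ck290 : checkRange tbl 5805 23 = 0 := by decide +kernel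
theorem ck291 : checkRange tbl 5828 30 = 0 := by decide +kernel
theorem ck292 : checkRange tbl 5858 30 = 0 := by decide +kernel
theorem ck293 : checkRange tbl 5888 28 = 0 := by decide +kernel
theorem ck294 : checkRange tbl 5916 29 = 0 := by decide +kernel
theorem ck295 : checkRange tbl 5945 28 = 0 := by decide +kernel
theorem ck296 : checkRange tbl 5973 21 = 0 := by decide +kernel
theorem ck297 : checkRange tbl 5994 28 = 0 := by decide +kernel
theorem ck298 : checkRange tbl 6022 19 = 0 := by decide +kernel
theorem ck299 : checkRange tbl 6041 15 = 0 := by decide +kernel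
theorem ck300 : checkRange tbl 6056 17 = 0 := by decide +kernel
theorem ck301 : checkRange tbl 6073 17 = 0 := by decide +kernel
theorem ck302 : checkRange tbl 6090 16 = 0 := by decide +kernel
theorem ck303 : checkRange tbl 6106 16 = 0 := by decide +kernel
theorem ck304 : checkRange tbl 6122 17 = 0 := by decide +kernel
theorem ck305 : checkRange tbl 6139 20 = 0 := by decide +kernel
theorem ck306 : checkRange tbl 6159 18 = 0 := by decide +kernel
theorem ck307 : checkRange tbl 6177 17 = 0 := by decide +kernel
theorem ck308 : checkRange tbl 6194 19 = 0 := by decide +kernel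
theorem ck309 : checkRange tbl 6213 18 = 0 := by decide +kernel
theorem ck310 : checkRange tbl 6231 18 = 0 := by decide +kernel
theorem ck311 : checkRange tbl 6249 18 = 0 := by decide +kernel
theorem ck312 : checkRange tbl 6267 19 = 0 := by decide +kernel
theorem ck313 : checkRange tbl 6286 17 = 0 := by decide +kernel
theorem ck314 : checkRange tbl 6303 20 = 0 := by decide +kernel
theorem ck315 : checkRange tbl 6323 18 = 0 := by decide +kernel
theorem ck316 : checkRange tbl 6341 18 = 0 := by decide +kernel
theorem ck317 : checkRange tbl 6359 16 = 0 := by decide +kernel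
theorem ck318 : checkRange tbl 6375 18 = 0 := by decide +kernel
theorem ck319 : checkRange tbl 6393 17 = 0 := by decide +kernel

theorem rng4 : RangeOK tbl 4960 1450 := RangeOK.join (RangeOK.join (RangeOK.join (RangeOK.join (RangeOK.join (RangeOK.join (RangeOK.of_check ck256) (RangeOK.of_check ck257) (Eq.refl 4981)) (RangeOK.join (RangeOK.of_check ck258) (RangeOK.of_check ck259) (Eq.refl 5021)) (Eq.refl 4998)) (RangeOK.join (RangeOK.join (RangeOK.of_check ck260) (RangeOK.of_check ck261) (Eq.refl 5066)) (RangeOK.join (RangeOK.of_check ck262) (RangeOK.of_check ck263) (Eq.refl 5121)) (Eq.refl 5092)) (Eq.refl 5043)) (RangeOK.join (RangeOK.join (RangeOK.join (RangeOK.of_check ck264) (RangeOK.of_check ck265) (Eq.refl 5171)) (RangeOK.join (RangeOK.of_check ck266) (RangeOK.of_check ck267) (Eq.refl 5220)) (Eq.refl 5197)) (RangeOK.join (RangeOK.join (RangeOK.of_check ck268) (RangeOK.of_check ck269) (Eq.refl 5267)) (RangeOK.join (RangeOK.of_check ck270) (RangeOK.of_check ck271) (Eq.refl 5319)) (Eq.refl 5292)) (Eq.refl 5243)) (Eq.refl 5147)) (RangeOK.join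 (RangeOK.join (RangeOK.join (RangeOK.join (RangeOK.of_check ck272) (RangeOK.of_check ck273) (Eq.refl 5374)) (RangeOK.join (RangeOK.of_check ck274) (RangeOK.of_check ck275) (Eq.refl 5424)) (Eq.refl 5399)) (RangeOK.join (RangeOK.join (RangeOK.of_check ck276) (RangeOK.of_check ck277) (Eq.refl 5473)) (RangeOK.join (RangeOK.of_check ck278) (RangeOK.of_check ck279) (Eq.refl 5520)) (Eq.refl 5496)) (Eq.refl 5448)) (RangeOK.join (RangeOK.join (RangeOK.join (RangeOK.of_check ck280) (RangeOK.of_check ck281) (Eq.refl 5572)) (RangeOK.join (RangeOK.of_check ck282) (RangeOK.of_check ck283) (Eq.refl 5617)) (Eq.refl 5600)) (RangeOK.join (RangeOK.join (RangeOK.of_check ck284) (RangeOK.of_check ck285) (Eq.refl 5667)) (RangeOK.join (RangeOK.of_check ck286) (RangeOK.of_check ck287) (Eq.refl 5723)) (Eq.refl 5693)) (Eq.refl 5638)) (Eq.refl 5546)) (Eq.refl 5347)) (RangeOK.join (RangeOK.join (RangeOK.join (RangeOK.join (RangeOK.join (RangeOK.of_check ck288) (RangeOK.of_check ck289) (Eq.refl 5779)) (RangeOK.join (RangeOK.of_check ck290) (RangeOK.of_check ck291)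 (Eq.refl 5828)) (Eq.refl 5805)) (RangeOK.join (RangeOK.join (RangeOK.of_check ck292) (RangeOK.of_check ck293) (Eq.refl 5888)) (RangeOK.join (RangeOK.of_check ck294) (RangeOK.of_check ck295) (Eq.refl 5945)) (Eq.refl 5916)) (Eq.refl 5858)) (RangeOK.join (RangeOK.join (RangeOK.join (RangeOK.of_check ck296) (RangeOK.of_check ck297) (Eq.refl 5994)) (RangeOK.join (RangeOK.of_check ck298) (RangeOK.of_check ck299) (Eq.refl 6041)) (Eq.refl 6022)) (RangeOK.join (RangeOK.join (RangeOK.of_check ck300) (RangeOK.of_check ck301) (Eq.refl 6073)) (RangeOK.join (RangeOK.of_check ck302) (RangeOK.of_check ck303) (Eq.refl 6106)) (Eq.refl 6090)) (Eq.refl 6056)) (Eq.refl 5973)) (RangeOK.join (RangeOK.join (RangeOK.join (RangeOK.join (RangeOK.of_check ck304) (RangeOK.of_check ck305) (Eq.refl 6139)) (RangeOK.join (RangeOK.of_check ck306) (RangeOK.of_check ck307) (Eq.refl 6177)) (Eq.refl 6159)) (RangeOK.join (RangeOK.join (RangeOK.of_check ck308) (RangeOK.of_check ck309) (Eq.refl 6213)) (RangeOK.join (RangeOK.of_check ck310) (RangeOK.of_check ck311) (Eq.refl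 6249)) (Eq.refl 6231)) (Eq.refl 6194)) (RangeOK.join (RangeOK.join (RangeOK.join (RangeOK.of_check ck312) (RangeOK.of_check ck313) (Eq.refl 6286)) (RangeOK.join (RangeOK.of_check ck314) (RangeOK.of_check ck315) (Eq.refl 6323)) (Eq.refl 6303)) (RangeOK.join (RangeOK.join (RangeOK.of_check ck316) (RangeOK.of_check ck317) (Eq.refl 6359)) (RangeOK.join (RangeOK.of_check ck318) (RangeOK.of_check ck319) (Eq.refl 6393)) (Eq.refl 6375)) (Eq.refl 6341)) (Eq.refl 6267)) (Eq.refl 6122)) (Eq.refl 5752)

end Vale.Agent.Snaky.P3
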