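import Vale.Agent.Snaky.P3.Tbl

namespace Vale.Agent.Snaky.P3

theorem ck320 : checkRange tbl 6410 18 = 0 := by decide +kernel
theorem ck321 : checkRange tbl 6428 19 = 0 := by decide +kernel
theorem ck322 : checkRange tbl 6447 18 = 0 := by decide +kernel
theorem ck323 : checkRange tbl 6465 18 = 0 := by decide +kernel
theorem ck324 : checkRange tbl 6483 18 = 0 := by decide +kernel
theorem ck325 : checkRange tbl 6501 18 = 0 := by decide +kernel
theorem ck326 : checkRange tbl 6519 18 = 0 := by decide +kernel
theorem ck327 : checkRange tbl 6537 17 = 0 := by decide +kernel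
theorem ck328 : checkRange tbl 6554 18 = 0 := by decide +kernel
theorem ck329 : checkRange tbl 6572 16 = 0 := by decide +kernel
theorem ck330 : checkRange tbl 6588 18 = 0 := by decide +kernel
theorem ck331 : checkRange tbl 6606 16 = 0 := by decide +kernel
theorem ck332 : checkRange tbl 6622 17 = 0 := by decide +kernel
theorem ck333 : checkRange tbl 6639 18 = 0 := by decide +kernel
theorem ck334 : checkRange tbl 6657 17 = 0 := by decide +kernel
theorem ck335 : checkRange tbl 6674 18 = 0 := by decide +kernel
theorem ck336 : checkRange tbl 6692 19 = 0 := by decide +kernel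
theorem ck337 : checkRange tbl 6711 17 = 0 := by decide +kernel
theorem ck338 : checkRange tbl 6728 16 = 0 := by decide +kernel
theorem ck339 : checkRange tbl 6744 18 = 0 := by decide +kernel
theorem ck340 : checkRange tbl 6762 16 = 0 := by decide +kernel
theorem ck341 : checkRange tbl 6778 19 = 0 := by decide +kernel
theorem ck342 : checkRange tbl 6797 19 = 0 := by decide +kernel
theorem ck343 : checkRange tbl 6816 17 = 0 := by decide +kernel
theorem ck344 : checkRange tbl 6833 17 = 0 := by decide +kernel
theorem ck345 : checkRange tbl 6850 16 = 0 := by decide +kernel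
theorem ck346 : checkRange tbl 6866 18 = 0 := by decide +kernel
theorem ck347 : checkRange tbl 6884 18 = 0 := by decide +kernel
theorem ck348 : checkRange tbl 6902 18 = 0 := by decide +kernel
theorem ck349 : checkRange tbl 6920 17 = 0 := by decide +kernel
theorem ck350 : checkRange tbl 6937 17 = 0 := by decide +kernel
theorem ck351 : checkRange tbl 6954 17 = 0 := by decide +kernel
theorem ck352 : checkRange tbl 6971 17 = 0 := by decide +kernel
theorem ck353 : checkRange tbl 6988 17 = 0 := by decide +kernel
theorem ck354 : checkRange tbl 7005 19 = 0 := by decide +kernel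
theorem ck355 : checkRange tbl 7024 18 = 0 := by decide +kernel
theorem ck356 : checkRange tbl 7042 17 = 0 := by decide +kernel
theorem ck357 : checkRange tbl 7059 18 = 0 := by decide +kernel
theorem ck358 : checkRange tbl 7077 17 = 0 := by decide +kernel
theorem ck359 : checkRange tbl 7094 17 = 0 := by decide +kernel
theorem ck360 : checkRange tbl 7111 18 = 0 := by decide +kernel
theorem ck361 : checkRange tbl 7129 16 = 0 := by decide +kernel
theorem ck362 : checkRange tbl 7145 19 = 0 := by decide +kernel
theorem ck363 : checkRange tbl 7164 18 = 0 := by decide +kernel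
theorem ck364 : checkRange tbl 7182 18 = 0 := by decide +kernel
theorem ck365 : checkRange tbl 7200 17 = 0 := by decide +kernel
theorem ck366 : checkRange tbl 7217 19 = 0 := by decide +kernel
theorem ck367 : checkRange tbl 7236 18 = 0 := by decide +kernel
theorem ck368 : checkRange tbl 7254 18 = 0 := by decide +kernel
theorem ck369 : checkRange tbl 7272 17 = 0 := by decide +kernel
theorem ck370 : checkRange tbl 7289 19 = 0 := by decide +kernel
theorem ck371 : checkRange tbl 7308 18 = 0 := by decide +kernel
theorem ck372 : checkRange tbl 7326 19 = 0 := by decide +kernel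
theorem ck373 : checkRange tbl 7345 19 = 0 := by decide +kernel
theorem ck374 : checkRange tbl 7364 16 = 0 := by decide +kernel
theorem ck375 : checkRange tbl 7380 16 = 0 := by decide +kernel
theorem ck376 : checkRange tbl 7396 17 = 0 := by decide +kernel
theorem ck377 : checkRange tbl 7413 18 = 0 := by decide +kernel
theorem ck378 : checkRange tbl 7431 16 = 0 := by decide +kernel
theorem ck379 : checkRange tbl 7447 15 = 0 := by decide +kernel
theorem ck380 : checkRange tbl 7462 14 = 0 := by decide +kernel
theorem ck381 : checkRange tbl 7476 14 = 0 := by decide +kernel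
theorem ck382 : checkRange tbl 7490 16 = 0 := by decide +kernel
theorem ck383 : checkRange tbl 7506 18 = 0 := by decide +kernel

theorem rng5 : RangeOK tbl 6410 1114 := RangeOK.join (RangeOK.join (RangeOK.join (RangeOK.join (RangeOK.join (RangeOK.join (RangeOK.of_check ck320) (RangeOK.of_check ck321) (Eq.refl 6428)) (RangeOK.join (RangeOK.of_check ck322) (RangeOK.of_check ck323) (Eq.refl 6465)) (Eq.refl 6447)) (RangeOK.join (RangeOK.join (RangeOK.of_check ck324) (RangeOK.of_check ck325) (Eq.refl 6501)) (RangeOK.join (RangeOK.of_check ck326) (RangeOK.of_check ck327) (Eq.refl 6537)) (Eq.refl 6519)) (Eq.refl 6483)) (RangeOK.join (RangeOK.join (RangeOK.join (RangeOK.of_check ck328) (RangeOK.of_check ck329) (Eq.refl 6572)) (RangeOK.join (RangeOK.of_check ck330) (RangeOK.of_check ck331) (Eq.refl 6606)) (Eq.refl 6588)) (RangeOK.join (RangeOK.join (RangeOK.of_check ck332) (RangeOK.of_check ck333) (Eq.refl 6639)) (RangeOK.join (RangeOK.of_check ck334) (RangeOK.of_check ck335) (Eq.refl 6674)) (Eq.refl 6657)) (Eq.refl 6622)) (Eq.refl 6554)) (RangeOK.join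 (RangeOK.join (RangeOK.join (RangeOK.join (RangeOK.of_check ck336) (RangeOK.of_check ck337) (Eq.refl 6711)) (RangeOK.join (RangeOK.of_check ck338) (RangeOK.of_check ck339) (Eq.refl 6744)) (Eq.refl 6728)) (RangeOK.join (RangeOK.join (RangeOK.of_check ck340) (RangeOK.of_check ck341) (Eq.refl 6778)) (RangeOK.join (RangeOK.of_check ck342) (RangeOK.of_check ck343) (Eq.refl 6816)) (Eq.refl 6797)) (Eq.refl 6762)) (RangeOK.join (RangeOK.join (RangeOK.join (RangeOK.of_check ck344) (RangeOK.of_check ck345) (Eq.refl 6850)) (RangeOK.join (RangeOK.of_check ck346) (RangeOK.of_check ck347) (Eq.refl 6884)) (Eq.refl 6866)) (RangeOK.join (RangeOK.join (RangeOK.of_check ck348) (RangeOK.of_check ck349) (Eq.refl 6920)) (RangeOK.join (RangeOK.of_check ck350) (RangeOK.of_check ck351) (Eq.refl 6954)) (Eq.refl 6937)) (Eq.refl 6902)) (Eq.refl 6833)) (Eq.refl 6692)) (RangeOK.join (RangeOK.join (RangeOK.join (RangeOK.join (RangeOK.join (RangeOK.of_check ck352) (RangeOK.of_check ck353) (Eq.refl 6988)) (RangeOK.join (RangeOK.of_check ck354) (RangeOK.of_check ck355)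 (Eq.refl 7024)) (Eq.refl 7005)) (RangeOK.join (RangeOK.join (RangeOK.of_check ck356) (RangeOK.of_check ck357) (Eq.refl 7059)) (RangeOK.join (RangeOK.of_check ck358) (RangeOK.of_check ck359) (Eq.refl 7094)) (Eq.refl 7077)) (Eq.refl 7042)) (RangeOK.join (RangeOK.join (RangeOK.join (RangeOK.of_check ck360) (RangeOK.of_check ck361) (Eq.refl 7129)) (RangeOK.join (RangeOK.of_check ck362) (RangeOK.of_check ck363) (Eq.refl 7164)) (Eq.refl 7145)) (RangeOK.join (RangeOK.join (RangeOK.of_check ck364) (RangeOK.of_check ck365) (Eq.refl 7200)) (RangeOK.join (RangeOK.of_check ck366) (RangeOK.of_check ck367) (Eq.refl 7236)) (Eq.refl 7217)) (Eq.refl 7182)) (Eq.refl 7111)) (RangeOK.join (RangeOK.join (RangeOK.join (RangeOK.join (RangeOK.of_check ck368) (RangeOK.of_check ck369) (Eq.refl 7272)) (RangeOK.join (RangeOK.of_check ck370) (RangeOK.of_check ck371) (Eq.refl 7308)) (Eq.refl 7289)) (RangeOK.join (RangeOK.join (RangeOK.of_check ck372) (RangeOK.of_check ck373) (Eq.refl 7345)) (RangeOK.join (RangeOK.of_check ck374) (RangeOK.of_check ck375) (Eq.refl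 7380)) (Eq.refl 7364)) (Eq.refl 7326)) (RangeOK.join (RangeOK.join (RangeOK.join (RangeOK.of_check ck376) (RangeOK.of_check ck377) (Eq.refl 7413)) (RangeOK.join (RangeOK.of_check ck378) (RangeOK.of_check ck379) (Eq.refl 7447)) (Eq.refl 7431)) (RangeOK.join (RangeOK.join (RangeOK.of_check ck380) (RangeOK.of_check ck381) (Eq.refl 7476)) (RangeOK.join (RangeOK.of_check ck382) (RangeOK.of_check ck383) (Eq.refl 7506)) (Eq.refl 7490)) (Eq.refl 7462)) (Eq.refl 7396)) (Eq.refl 7254)) (Eq.refl 6971)

end Vale.Agent.Snaky.P3
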