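import Vale.Agent.Snaky.P3.Tbl

namespace Vale.Agent.Snaky.P3

theorem ck384 : checkRange tbl 7524 19 = 0 := by decide +kernel
theorem ck385 : checkRange tbl 7543 14 = 0 := by decide +kernel
theorem ck386 : checkRange tbl 7557 15 = 0 := by decide +kernel
theorem ck387 : checkRange tbl 7572 16 = 0 := by decide +kernel
theorem ck388 : checkRange tbl 7588 16 = 0 := by decide +kernel
theorem ck389 : checkRange tbl 7604 15 = 0 := by decide +kernel
theorem ck390 : checkRange tbl 7619 17 = 0 := by decide +kernel
theorem ck391 : checkRange tbl 7636 20 = 0 := by decide +kernel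
theorem ck392 : checkRange tbl 7656 17 = 0 := by decide +kernel
theorem ck393 : checkRange tbl 7673 23 = 0 := by decide +kernel
theorem ck394 : checkRange tbl 7696 19 = 0 := by decide +kernel
theorem ck395 : checkRange tbl 7715 14 = 0 := by decide +kernel
theorem ck396 : checkRange tbl 7729 20 = 0 := by decide +kernel
theorem ck397 : checkRange tbl 7749 20 = 0 := by decide +kernel
theorem ck398 : checkRange tbl 7769 15 = 0 := by decide +kernel
theorem ck399 : checkRange tbl 7784 19 = 0 := by decide +kernel
theorem ck400 : checkRange tbl 7803 19 = 0 := by decide +kernel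
theorem ck401 : checkRange tbl 7822 24 = 0 := by decide +kernel
theorem ck402 : checkRange tbl 7846 19 = 0 := by decide +kernel
theorem ck403 : checkRange tbl 7865 19 = 0 := by decide +kernel
theorem ck404 : checkRange tbl 7884 19 = 0 := by decide +kernel
theorem ck405 : checkRange tbl 7903 25 = 0 := by decide +kernel
theorem ck406 : checkRange tbl 7928 22 = 0 := by decide +kernel
theorem ck407 : checkRange tbl 7950 20 = 0 := by decide +kernel
theorem ck408 : checkRange tbl 7970 16 = 0 := by decide +kernel
theorem ck409 : checkRange tbl 7986 16 = 0 := by decide +kernel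
theorem ck410 : checkRange tbl 8002 25 = 0 := by decide +kernel
theorem ck411 : checkRange tbl 8027 23 = 0 := by decide +kernel
theorem ck412 : checkRange tbl 8050 20 = 0 := by decide +kernel
theorem ck413 : checkRange tbl 8070 27 = 0 := by decide +kernel
theorem ck414 : checkRange tbl 8097 27 = 0 := by decide +kernel
theorem ck415 : checkRange tbl 8124 25 = 0 := by decide +kernel
theorem ck416 : checkRange tbl 8149 23 = 0 := by decide +kernel
theorem ck417 : checkRange tbl 8172 23 = 0 := by decide +kernel
theorem ck418 : checkRange tbl 8195 30 = 0 := by decide +kernel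
theorem ck419 : checkRange tbl 8225 22 = 0 := by decide +kernel
theorem ck420 : checkRange tbl 8247 27 = 0 := by decide +kernel
theorem ck421 : checkRange tbl 8274 28 = 0 := by decide +kernel
theorem ck422 : checkRange tbl 8302 19 = 0 := by decide +kernel
theorem ck423 : checkRange tbl 8321 28 = 0 := by decide +kernel
theorem ck424 : checkRange tbl 8349 22 = 0 := by decide +kernel
theorem ck425 : checkRange tbl 8371 22 = 0 := by decide +kernel
theorem ck426 : checkRange tbl 8393 24 = 0 := by decide +kernel
theorem ck427 : checkRange tbl 8417 24 = 0 := by decide +kernel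
theorem ck428 : checkRange tbl 8441 19 = 0 := by decide +kernel
theorem ck429 : checkRange tbl 8460 26 = 0 := by decide +kernel
theorem ck430 : checkRange tbl 8486 28 = 0 := by decide +kernel
theorem ck431 : checkRange tbl 8514 25 = 0 := by decide +kernel
theorem ck432 : checkRange tbl 8539 25 = 0 := by decide +kernel
theorem ck433 : checkRange tbl 8564 25 = 0 := by decide +kernel
theorem ck434 : checkRange tbl 8589 30 = 0 := by decide +kernel
theorem ck435 : checkRange tbl 8619 29 = 0 := by decide +kernel
theorem ck436 : checkRange tbl 8648 26 = 0 := by decide +kernel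
theorem ck437 : checkRange tbl 8674 26 = 0 := by decide +kernel
theorem ck438 : checkRange tbl 8700 21 = 0 := by decide +kernel
theorem ck439 : checkRange tbl 8721 30 = 0 := by decide +kernel
theorem ck440 : checkRange tbl 8751 23 = 0 := by decide +kernel
theorem ck441 : checkRange tbl 8774 26 = 0 := by decide +kernel
theorem ck442 : checkRange tbl 8800 26 = 0 := by decide +kernel
theorem ck443 : checkRange tbl 8826 22 = 0 := by decide +kernel
theorem ck444 : checkRange tbl 8848 23 = 0 := by decide +kernel
theorem ck445 : checkRange tbl 8871 27 = 0 := by decide +kernel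
theorem ck446 : checkRange tbl 8898 26 = 0 := by decide +kernel
theorem ck447 : checkRange tbl 8924 22 = 0 := by decide +kernel

theorem rng6 : RangeOK tbl 7524 1422 := RangeOK.join (RangeOK.join (RangeOK.join (RangeOK.join (RangeOK.join (RangeOK.join (RangeOK.of_check ck384) (RangeOK.of_check ck385) (Eq.refl 7543)) (RangeOK.join (RangeOK.of_check ck386) (RangeOK.of_check ck387) (Eq.refl 7572)) (Eq.refl 7557)) (RangeOK.join (RangeOK.join (RangeOK.of_check ck388) (RangeOK.of_check ck389) (Eq.refl 7604)) (RangeOK.join (RangeOK.of_check ck390) (RangeOK.of_check ck391) (Eq.refl 7636)) (Eq.refl 7619)) (Eq.refl 7588)) (RangeOK.join (RangeOK.join (RangeOK.join (RangeOK.of_check ck392) (RangeOK.of_check ck393) (Eq.refl 7673)) (RangeOK.join (RangeOK.of_check ck394) (RangeOK.of_check ck395) (Eq.refl 7715)) (Eq.refl 7696)) (RangeOK.join (RangeOK.join (RangeOK.of_check ck396) (RangeOK.of_check ck397) (Eq.refl 7749)) (RangeOK.join (RangeOK.of_check ck398) (RangeOK.of_check ck399) (Eq.refl 7784)) (Eq.refl 7769)) (Eq.refl 7729)) (Eq.refl 7656)) (RangeOK.join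 (RangeOK.join (RangeOK.join (RangeOK.join (RangeOK.of_check ck400) (RangeOK.of_check ck401) (Eq.refl 7822)) (RangeOK.join (RangeOK.of_check ck402) (RangeOK.of_check ck403) (Eq.refl 7865)) (Eq.refl 7846)) (RangeOK.join (RangeOK.join (RangeOK.of_check ck404) (RangeOK.of_check ck405) (Eq.refl 7903)) (RangeOK.join (RangeOK.of_check ck406) (RangeOK.of_check ck407) (Eq.refl 7950)) (Eq.refl 7928)) (Eq.refl 7884)) (RangeOK.join (RangeOK.join (RangeOK.join (RangeOK.of_check ck408) (RangeOK.of_check ck409) (Eq.refl 7986)) (RangeOK.join (RangeOK.of_check ck410) (RangeOK.of_check ck411) (Eq.refl 8027)) (Eq.refl 8002)) (RangeOK.join (RangeOK.join (RangeOK.of_check ck412) (RangeOK.of_check ck413) (Eq.refl 8070)) (RangeOK.join (RangeOK.of_check ck414) (RangeOK.of_check ck415) (Eq.refl 8124)) (Eq.refl 8097)) (Eq.refl 8050)) (Eq.refl 7970)) (Eq.refl 7803)) (RangeOK.join (RangeOK.join (RangeOK.join (RangeOK.join (RangeOK.join (RangeOK.of_check ck416) (RangeOK.of_check ck417) (Eq.refl 8172)) (RangeOK.join (RangeOK.of_check ck418) (RangeOK.of_check ck419)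 (Eq.refl 8225)) (Eq.refl 8195)) (RangeOK.join (RangeOK.join (RangeOK.of_check ck420) (RangeOK.of_check ck421) (Eq.refl 8274)) (RangeOK.join (RangeOK.of_check ck422) (RangeOK.of_check ck423) (Eq.refl 8321)) (Eq.refl 8302)) (Eq.refl 8247)) (RangeOK.join (RangeOK.join (RangeOK.join (RangeOK.of_check ck424) (RangeOK.of_check ck425) (Eq.refl 8371)) (RangeOK.join (RangeOK.of_check ck426) (RangeOK.of_check ck427) (Eq.refl 8417)) (Eq.refl 8393)) (RangeOK.join (RangeOK.join (RangeOK.of_check ck428) (RangeOK.of_check ck429) (Eq.refl 8460)) (RangeOK.join (RangeOK.of_check ck430) (RangeOK.of_check ck431) (Eq.refl 8514)) (Eq.refl 8486)) (Eq.refl 8441)) (Eq.refl 8349)) (RangeOK.join (RangeOK.join (RangeOK.join (RangeOK.join (RangeOK.of_check ck432) (RangeOK.of_check ck433) (Eq.refl 8564)) (RangeOK.join (RangeOK.of_check ck434) (RangeOK.of_check ck435) (Eq.refl 8619)) (Eq.refl 8589)) (RangeOK.join (RangeOK.join (RangeOK.of_check ck436) (RangeOK.of_check ck437) (Eq.refl 8674)) (RangeOK.join (RangeOK.of_check ck438) (RangeOK.of_check ck439) (Eq.refl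 8721)) (Eq.refl 8700)) (Eq.refl 8648)) (RangeOK.join (RangeOK.join (RangeOK.join (RangeOK.of_check ck440) (RangeOK.of_check ck441) (Eq.refl 8774)) (RangeOK.join (RangeOK.of_check ck442) (RangeOK.of_check ck443) (Eq.refl 8826)) (Eq.refl 8800)) (RangeOK.join (RangeOK.join (RangeOK.of_check ck444) (RangeOK.of_check ck445) (Eq.refl 8871)) (RangeOK.join (RangeOK.of_check ck446) (RangeOK.of_check ck447) (Eq.refl 8924)) (Eq.refl 8898)) (Eq.refl 8848)) (Eq.refl 8751)) (Eq.refl 8539)) (Eq.refl 8149)

end Vale.Agent.Snaky.P3
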