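import Vale.Agent.Snaky.P3.Tbl

namespace Vale.Agent.Snaky.P3

theorem ck448 : checkRange tbl 8946 26 = 0 := by decide +kernel
theorem ck449 : checkRange tbl 8972 27 = 0 := by decide +kernel
theorem ck450 : checkRange tbl 8999 25 = 0 := by decide +kernel
theorem ck451 : checkRange tbl 9024 27 = 0 := by decide +kernel
theorem ck452 : checkRange tbl 9051 30 = 0 := by decide +kernel
theorem ck453 : checkRange tbl 9081 27 = 0 := by decide +kernel
theorem ck454 : checkRange tbl 9108 27 = 0 := by decide +kernel
theorem ck455 : checkRange tbl 9135 24 = 0 := by decide +kernel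
theorem ck456 : checkRange tbl 9159 27 = 0 := by decide +kernel
theorem ck457 : checkRange tbl 9186 24 = 0 := by decide +kernel
theorem ck458 : checkRange tbl 9210 26 = 0 := by decide +kernel
theorem ck459 : checkRange tbl 9236 17 = 0 := by decide +kernel
theorem ck460 : checkRange tbl 9253 16 = 0 := by decide +kernel
theorem ck461 : checkRange tbl 9269 15 = 0 := by decide +kernel
theorem ck462 : checkRange tbl 9284 16 = 0 := by decide +kernel
theorem ck463 : checkRange tbl 9300 18 = 0 := by decide +kernel
theorem ck464 : checkRange tbl 9318 17 = 0 := by decide +kernel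
theorem ck465 : checkRange tbl 9335 17 = 0 := by decide +kernel
theorem ck466 : checkRange tbl 9352 18 = 0 := by decide +kernel
theorem ck467 : checkRange tbl 9370 18 = 0 := by decide +kernel
theorem ck468 : checkRange tbl 9388 19 = 0 := by decide +kernel
theorem ck469 : checkRange tbl 9407 16 = 0 := by decide +kernel
theorem ck470 : checkRange tbl 9423 17 = 0 := by decide +kernel
theorem ck471 : checkRange tbl 9440 18 = 0 := by decide +kernel
theorem ck472 : checkRange tbl 9458 17 = 0 := by decide +kernel
theorem ck473 : checkRange tbl 9475 16 = 0 := by decide +kernel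
theorem ck474 : checkRange tbl 9491 17 = 0 := by decide +kernel
theorem ck475 : checkRange tbl 9508 17 = 0 := by decide +kernel
theorem ck476 : checkRange tbl 9525 18 = 0 := by decide +kernel
theorem ck477 : checkRange tbl 9543 17 = 0 := by decide +kernel
theorem ck478 : checkRange tbl 9560 15 = 0 := by decide +kernel
theorem ck479 : checkRange tbl 9575 17 = 0 := by decide +kernel
theorem ck480 : checkRange tbl 9592 16 = 0 := by decide +kernel
theorem ck481 : checkRange tbl 9608 18 = 0 := by decide +kernel
theorem ck482 : checkRange tbl 9626 17 = 0 := by decide +kernel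
theorem ck483 : checkRange tbl 9643 19 = 0 := by decide +kernel
theorem ck484 : checkRange tbl 9662 18 = 0 := by decide +kernel
theorem ck485 : checkRange tbl 9680 18 = 0 := by decide +kernel
theorem ck486 : checkRange tbl 9698 18 = 0 := by decide +kernel
theorem ck487 : checkRange tbl 9716 17 = 0 := by decide +kernel
theorem ck488 : checkRange tbl 9733 18 = 0 := by decide +kernel
theorem ck489 : checkRange tbl 9751 18 = 0 := by decide +kernel
theorem ck490 : checkRange tbl 9769 17 = 0 := by decide +kernel
theorem ck491 : checkRange tbl 9786 15 = 0 := by decide +kernel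
theorem ck492 : checkRange tbl 9801 16 = 0 := by decide +kernel
theorem ck493 : checkRange tbl 9817 17 = 0 := by decide +kernel
theorem ck494 : checkRange tbl 9834 17 = 0 := by decide +kernel
theorem ck495 : checkRange tbl 9851 17 = 0 := by decide +kernel
theorem ck496 : checkRange tbl 9868 16 = 0 := by decide +kernel
theorem ck497 : checkRange tbl 9884 16 = 0 := by decide +kernel
theorem ck498 : checkRange tbl 9900 17 = 0 := by decide +kernel
theorem ck499 : checkRange tbl 9917 16 = 0 := by decide +kernel
theorem ck500 : checkRange tbl 9933 17 = 0 := by decide +kernel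
theorem ck501 : checkRange tbl 9950 17 = 0 := by decide +kernel
theorem ck502 : checkRange tbl 9967 17 = 0 := by decide +kernel
theorem ck503 : checkRange tbl 9984 15 = 0 := by decide +kernel
theorem ck504 : checkRange tbl 9999 17 = 0 := by decide +kernel
theorem ck505 : checkRange tbl 10016 16 = 0 := by decide +kernel
theorem ck506 : checkRange tbl 10032 17 = 0 := by decide +kernel
theorem ck507 : checkRange tbl 10049 17 = 0 := by decide +kernel
theorem ck508 : checkRange tbl 10066 16 = 0 := by decide +kernel
theorem ck509 : checkRange tbl 10082 17 = 0 := by decide +kernel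
theorem ck510 : checkRange tbl 10099 16 = 0 := by decide +kernel
theorem ck511 : checkRange tbl 10115 17 = 0 := by decide +kernel

theorem rng7 : RangeOK tbl 8946 1186 := RangeOK.join (RangeOK.join (RangeOK.join (RangeOK.join (RangeOK.join (RangeOK.join (RangeOK.of_check ck448) (RangeOK.of_check ck449) (Eq.refl 8972)) (RangeOK.join (RangeOK.of_check ck450) (RangeOK.of_check ck451) (Eq.refl 9024)) (Eq.refl 8999)) (RangeOK.join (RangeOK.join (RangeOK.of_check ck452) (RangeOK.of_check ck453) (Eq.refl 9081)) (RangeOK.join (RangeOK.of_check ck454) (RangeOK.of_check ck455) (Eq.refl 9135)) (Eq.refl 9108)) (Eq.refl 9051)) (RangeOK.join (RangeOK.join (RangeOK.join (RangeOK.of_check ck456) (RangeOK.of_check ck457) (Eq.refl 9186)) (RangeOK.join (RangeOK.of_check ck458) (RangeOK.of_check ck459) (Eq.refl 9236)) (Eq.refl 9210)) (RangeOK.join (RangeOK.join (RangeOK.of_check ck460) (RangeOK.of_check ck461) (Eq.refl 9269)) (RangeOK.join (RangeOK.of_check ck462) (RangeOK.of_check ck463) (Eq.refl 9300)) (Eq.refl 9284)) (Eq.refl 9253)) (Eq.refl 9159)) (RangeOK.join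 (RangeOK.join (RangeOK.join (RangeOK.join (RangeOK.of_check ck464) (RangeOK.of_check ck465) (Eq.refl 9335)) (RangeOK.join (RangeOK.of_check ck466) (RangeOK.of_check ck467) (Eq.refl 9370)) (Eq.refl 9352)) (RangeOK.join (RangeOK.join (RangeOK.of_check ck468) (RangeOK.of_check ck469) (Eq.refl 9407)) (RangeOK.join (RangeOK.of_check ck470) (RangeOK.of_check ck471) (Eq.refl 9440)) (Eq.refl 9423)) (Eq.refl 9388)) (RangeOK.join (RangeOK.join (RangeOK.join (RangeOK.of_check ck472) (RangeOK.of_check ck473) (Eq.refl 9475)) (RangeOK.join (RangeOK.of_check ck474) (RangeOK.of_check ck475) (Eq.refl 9508)) (Eq.refl 9491)) (RangeOK.join (RangeOK.join (RangeOK.of_check ck476) (RangeOK.of_check ck477) (Eq.refl 9543)) (RangeOK.join (RangeOK.of_check ck478) (RangeOK.of_check ck479) (Eq.refl 9575)) (Eq.refl 9560)) (Eq.refl 9525)) (Eq.refl 9458)) (Eq.refl 9318)) (RangeOK.join (RangeOK.join (RangeOK.join (RangeOK.join (RangeOK.join (RangeOK.of_check ck480) (RangeOK.of_check ck481) (Eq.refl 9608)) (RangeOK.join (RangeOK.of_check ck482) (RangeOK.of_check ck483)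 (Eq.refl 9643)) (Eq.refl 9626)) (RangeOK.join (RangeOK.join (RangeOK.of_check ck484) (RangeOK.of_check ck485) (Eq.refl 9680)) (RangeOK.join (RangeOK.of_check ck486) (RangeOK.of_check ck487) (Eq.refl 9716)) (Eq.refl 9698)) (Eq.refl 9662)) (RangeOK.join (RangeOK.join (RangeOK.join (RangeOK.of_check ck488) (RangeOK.of_check ck489) (Eq.refl 9751)) (RangeOK.join (RangeOK.of_check ck490) (RangeOK.of_check ck491) (Eq.refl 9786)) (Eq.refl 9769)) (RangeOK.join (RangeOK.join (RangeOK.of_check ck492) (RangeOK.of_check ck493) (Eq.refl 9817)) (RangeOK.join (RangeOK.of_check ck494) (RangeOK.of_check ck495) (Eq.refl 9851)) (Eq.refl 9834)) (Eq.refl 9801)) (Eq.refl 9733)) (RangeOK.join (RangeOK.join (RangeOK.join (RangeOK.join (RangeOK.of_check ck496) (RangeOK.of_check ck497) (Eq.refl 9884)) (RangeOK.join (RangeOK.of_check ck498) (RangeOK.of_check ck499) (Eq.refl 9917)) (Eq.refl 9900)) (RangeOK.join (RangeOK.join (RangeOK.of_check ck500) (RangeOK.of_check ck501) (Eq.refl 9950)) (RangeOK.join (RangeOK.of_check ck502) (RangeOK.of_check ck503) (Eq.refl 9984))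 (Eq.refl 9967)) (Eq.refl 9933)) (RangeOK.join (RangeOK.join (RangeOK.join (RangeOK.of_check ck504) (RangeOK.of_check ck505) (Eq.refl 10016)) (RangeOK.join (RangeOK.of_check ck506) (RangeOK.of_check ck507) (Eq.refl 10049)) (Eq.refl 10032)) (RangeOK.join (RangeOK.join (RangeOK.of_check ck508) (RangeOK.of_check ck509) (Eq.refl 10082)) (RangeOK.join (RangeOK.of_check ck510) (RangeOK.of_check ck511) (Eq.refl 10115)) (Eq.refl 10099)) (Eq.refl 10066)) (Eq.refl 9999)) (Eq.refl 9868)) (Eq.refl 9592)

end Vale.Agent.Snaky.P3
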