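import Vale.Agent.Snaky.P3.Tbl

namespace Vale.Agent.Snaky.P3

theorem ck512 : checkRange tbl 10132 16 = 0 := by decide +kernel
theorem ck513 : checkRange tbl 10148 15 = 0 := by decide +kernel
theorem ck514 : checkRange tbl 10163 18 = 0 := by decide +kernel
theorem ck515 : checkRange tbl 10181 16 = 0 := by decide +kernel
theorem ck516 : checkRange tbl 10197 16 = 0 := by decide +kernel
theorem ck517 : checkRange tbl 10213 14 = 0 := by decide +kernel
theorem ck518 : checkRange tbl 10227 15 = 0 := by decide +kernel
theorem ck519 : checkRange tbl 10242 16 = 0 := by decide +kernel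
theorem ck520 : checkRange tbl 10258 18 = 0 := by decide +kernel
theorem ck521 : checkRange tbl 10276 19 = 0 := by decide +kernel
theorem ck522 : checkRange tbl 10295 17 = 0 := by decide +kernel
theorem ck523 : checkRange tbl 10312 16 = 0 := by decide +kernel
theorem ck524 : checkRange tbl 10328 18 = 0 := by decide +kernel
theorem ck525 : checkRange tbl 10346 16 = 0 := by decide +kernel
theorem ck526 : checkRange tbl 10362 17 = 0 := by decide +kernel
theorem ck527 : checkRange tbl 10379 18 = 0 := by decide +kernel
theorem ck528 : checkRange tbl 10397 18 = 0 := by decide +kernel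
theorem ck529 : checkRange tbl 10415 18 = 0 := by decide +kernel
theorem ck530 : checkRange tbl 10433 18 = 0 := by decide +kernel
theorem ck531 : checkRange tbl 10451 15 = 0 := by decide +kernel
theorem ck532 : checkRange tbl 10466 18 = 0 := by decide +kernel
theorem ck533 : checkRange tbl 10484 16 = 0 := by decide +kernel
theorem ck534 : checkRange tbl 10500 13 = 0 := by decide +kernel
theorem ck535 : checkRange tbl 10513 15 = 0 := by decide +kernel
theorem ck536 : checkRange tbl 10528 16 = 0 := by decide +kernel
theorem ck537 : checkRange tbl 10544 14 = 0 := by decide +kernel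
theorem ck538 : checkRange tbl 10558 18 = 0 := by decide +kernel
theorem ck539 : checkRange tbl 10576 17 = 0 := by decide +kernel
theorem ck540 : checkRange tbl 10593 14 = 0 := by decide +kernel
theorem ck541 : checkRange tbl 10607 17 = 0 := by decide +kernel
theorem ck542 : checkRange tbl 10624 16 = 0 := by decide +kernel
theorem ck543 : checkRange tbl 10640 17 = 0 := by decide +kernel
theorem ck544 : checkRange tbl 10657 16 = 0 := by decide +kernel
theorem ck545 : checkRange tbl 10673 18 = 0 := by decide +kernel
theorem ck546 : checkRange tbl 10691 15 = 0 := by decide +kernel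
theorem ck547 : checkRange tbl 10706 16 = 0 := by decide +kernel
theorem ck548 : checkRange tbl 10722 14 = 0 := by decide +kernel
theorem ck549 : checkRange tbl 10736 16 = 0 := by decide +kernel
theorem ck550 : checkRange tbl 10752 24 = 0 := by decide +kernel
theorem ck551 : checkRange tbl 10776 20 = 0 := by decide +kernel
theorem ck552 : checkRange tbl 10796 18 = 0 := by decide +kernel
theorem ck553 : checkRange tbl 10814 19 = 0 := by decide +kernel
theorem ck554 : checkRange tbl 10833 18 = 0 := by decide +kernel
theorem ck555 : checkRange tbl 10851 17 = 0 := by decide +kernel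
theorem ck556 : checkRange tbl 10868 20 = 0 := by decide +kernel
theorem ck557 : checkRange tbl 10888 19 = 0 := by decide +kernel
theorem ck558 : checkRange tbl 10907 25 = 0 := by decide +kernel
theorem ck559 : checkRange tbl 10932 17 = 0 := by decide +kernel
theorem ck560 : checkRange tbl 10949 20 = 0 := by decide +kernel
theorem ck561 : checkRange tbl 10969 19 = 0 := by decide +kernel
theorem ck562 : checkRange tbl 10988 22 = 0 := by decide +kernel
theorem ck563 : checkRange tbl 11010 20 = 0 := by decide +kernel
theorem ck564 : checkRange tbl 11030 17 = 0 := by decide +kernel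
theorem ck565 : checkRange tbl 11047 24 = 0 := by decide +kernel
theorem ck566 : checkRange tbl 11071 30 = 0 := by decide +kernel
theorem ck567 : checkRange tbl 11101 16 = 0 := by decide +kernel
theorem ck568 : checkRange tbl 11117 18 = 0 := by decide +kernel
theorem ck569 : checkRange tbl 11135 23 = 0 := by decide +kernel
theorem ck570 : checkRange tbl 11158 24 = 0 := by decide +kernel
theorem ck571 : checkRange tbl 11182 28 = 0 := by decide +kernel
theorem ck572 : checkRange tbl 11210 26 = 0 := by decide +kernel
theorem ck573 : checkRange tbl 11236 25 = 0 := by decide +kernel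
theorem ck574 : checkRange tbl 11261 28 = 0 := by decide +kernel
theorem ck575 : checkRange tbl 11289 27 = 0 := by decide +kernel

theorem rng8 : RangeOK tbl 10132 1184 := RangeOK.join (RangeOK.join (RangeOK.join (RangeOK.join (RangeOK.join (RangeOK.join (RangeOK.of_check ck512) (RangeOK.of_check ck513) (Eq.refl 10148)) (RangeOK.join (RangeOK.of_check ck514) (RangeOK.of_check ck515) (Eq.refl 10181)) (Eq.refl 10163)) (RangeOK.join (RangeOK.join (RangeOK.of_check ck516) (RangeOK.of_check ck517) (Eq.refl 10213)) (RangeOK.join (RangeOK.of_check ck518) (RangeOK.of_check ck519) (Eq.refl 10242)) (Eq.refl 10227)) (Eq.refl 10197)) (RangeOK.join (RangeOK.join (RangeOK.join (RangeOK.of_check ck520) (RangeOK.of_check ck521) (Eq.refl 10276)) (RangeOK.join (RangeOK.of_check ck522) (RangeOK.of_check ck523) (Eq.refl 10312)) (Eq.refl 10295)) (RangeOK.join (RangeOK.join (RangeOK.of_check ck524) (RangeOK.of_check ck525) (Eq.refl 10346)) (RangeOK.join (RangeOK.of_check ck526) (RangeOK.of_check ck527) (Eq.refl 10379)) (Eq.refl 10362)) (Eq.refl 10328)) (Eq.refl 10258)) (RangeOK.join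 (RangeOK.join (RangeOK.join (RangeOK.join (RangeOK.of_check ck528) (RangeOK.of_check ck529) (Eq.refl 10415)) (RangeOK.join (RangeOK.of_check ck530) (RangeOK.of_check ck531) (Eq.refl 10451)) (Eq.refl 10433)) (RangeOK.join (RangeOK.join (RangeOK.of_check ck532) (RangeOK.of_check ck533) (Eq.refl 10484)) (RangeOK.join (RangeOK.of_check ck534) (RangeOK.of_check ck535) (Eq.refl 10513)) (Eq.refl 10500)) (Eq.refl 10466)) (RangeOK.join (RangeOK.join (RangeOK.join (RangeOK.of_check ck536) (RangeOK.of_check ck537) (Eq.refl 10544)) (RangeOK.join (RangeOK.of_check ck538) (RangeOK.of_check ck539) (Eq.refl 10576)) (Eq.refl 10558)) (RangeOK.join (RangeOK.join (RangeOK.of_check ck540) (RangeOK.of_check ck541) (Eq.refl 10607)) (RangeOK.join (RangeOK.of_check ck542) (RangeOK.of_check ck543) (Eq.refl 10640)) (Eq.refl 10624)) (Eq.refl 10593)) (Eq.refl 10528)) (Eq.refl 10397)) (RangeOK.join (RangeOK.join (RangeOK.join (RangeOK.join (RangeOK.join (RangeOK.of_check ck544) (RangeOK.of_check ck545) (Eq.refl 10673)) (RangeOK.join (RangeOK.of_check ck546) (RangeOK.of_check ck547)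 (Eq.refl 10706)) (Eq.refl 10691)) (RangeOK.join (RangeOK.join (RangeOK.of_check ck548) (RangeOK.of_check ck549) (Eq.refl 10736)) (RangeOK.join (RangeOK.of_check ck550) (RangeOK.of_check ck551) (Eq.refl 10776)) (Eq.refl 10752)) (Eq.refl 10722)) (RangeOK.join (RangeOK.join (RangeOK.join (RangeOK.of_check ck552) (RangeOK.of_check ck553) (Eq.refl 10814)) (RangeOK.join (RangeOK.of_check ck554) (RangeOK.of_check ck555) (Eq.refl 10851)) (Eq.refl 10833)) (RangeOK.join (RangeOK.join (RangeOK.of_check ck556) (RangeOK.of_check ck557) (Eq.refl 10888)) (RangeOK.join (RangeOK.of_check ck558) (RangeOK.of_check ck559) (Eq.refl 10932)) (Eq.refl 10907)) (Eq.refl 10868)) (Eq.refl 10796)) (RangeOK.join (RangeOK.join (RangeOK.join (RangeOK.join (RangeOK.of_check ck560) (RangeOK.of_check ck561) (Eq.refl 10969)) (RangeOK.join (RangeOK.of_check ck562) (RangeOK.of_check ck563) (Eq.refl 11010)) (Eq.refl 10988)) (RangeOK.join (RangeOK.join (RangeOK.of_check ck564) (RangeOK.of_check ck565) (Eq.refl 11047)) (RangeOK.join (RangeOK.of_check ck566) (RangeOK.of_check ck567) (Eq.refl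 11101)) (Eq.refl 11071)) (Eq.refl 11030)) (RangeOK.join (RangeOK.join (RangeOK.join (RangeOK.of_check ck568) (RangeOK.of_check ck569) (Eq.refl 11135)) (RangeOK.join (RangeOK.of_check ck570) (RangeOK.of_check ck571) (Eq.refl 11182)) (Eq.refl 11158)) (RangeOK.join (RangeOK.join (RangeOK.of_check ck572) (RangeOK.of_check ck573) (Eq.refl 11236)) (RangeOK.join (RangeOK.of_check ck574) (RangeOK.of_check ck575) (Eq.refl 11289)) (Eq.refl 11261)) (Eq.refl 11210)) (Eq.refl 11117)) (Eq.refl 10949)) (Eq.refl 10657)

end Vale.Agent.Snaky.P3
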