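import Vale.Agent.Snaky.P3.Tbl

namespace Vale.Agent.Snaky.P3

theorem ck576 : checkRange tbl 11316 26 = 0 := by decide +kernel
theorem ck577 : checkRange tbl 11342 21 = 0 := by decide +kernel
theorem ck578 : checkRange tbl 11363 24 = 0 := by decide +kernel
theorem ck579 : checkRange tbl 11387 28 = 0 := by decide +kernel
theorem ck580 : checkRange tbl 11415 28 = 0 := by decide +kernel
theorem ck581 : checkRange tbl 11443 28 = 0 := by decide +kernel
theorem ck582 : checkRange tbl 11471 28 = 0 := by decide +kernel
theorem ck583 : checkRange tbl 11499 24 = 0 := by decide +kernel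
theorem ck584 : checkRange tbl 11523 26 = 0 := by decide +kernel
theorem ck585 : checkRange tbl 11549 20 = 0 := by decide +kernel
theorem ck586 : checkRange tbl 11569 30 = 0 := by decide +kernel
theorem ck587 : checkRange tbl 11599 30 = 0 := by decide +kernel
theorem ck588 : checkRange tbl 11629 28 = 0 := by decide +kernel
theorem ck589 : checkRange tbl 11657 22 = 0 := by decide +kernel
theorem ck590 : checkRange tbl 11679 29 = 0 := by decide +kernel
theorem ck591 : checkRange tbl 11708 26 = 0 := by decide +kernel
theorem ck592 : checkRange tbl 11734 26 = 0 := by decide +kernel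
theorem ck593 : checkRange tbl 11760 28 = 0 := by decide +kernel
theorem ck594 : checkRange tbl 11788 27 = 0 := by decide +kernel
theorem ck595 : checkRange tbl 11815 26 = 0 := by decide +kernel
theorem ck596 : checkRange tbl 11841 24 = 0 := by decide +kernel
theorem ck597 : checkRange tbl 11865 26 = 0 := by decide +kernel
theorem ck598 : checkRange tbl 11891 16 = 0 := by decide +kernel
theorem ck599 : checkRange tbl 11907 28 = 0 := by decide +kernel
theorem ck600 : checkRange tbl 11935 30 = 0 := by decide +kernel
theorem ck601 : checkRange tbl 11965 30 = 0 := by decide +kernel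
theorem ck602 : checkRange tbl 11995 28 = 0 := by decide +kernel
theorem ck603 : checkRange tbl 12023 30 = 0 := by decide +kernel
theorem ck604 : checkRange tbl 12053 30 = 0 := by decide +kernel
theorem ck605 : checkRange tbl 12083 21 = 0 := by decide +kernel
theorem ck606 : checkRange tbl 12104 29 = 0 := by decide +kernel
theorem ck607 : checkRange tbl 12133 28 = 0 := by decide +kernel
theorem ck608 : checkRange tbl 12161 21 = 0 := by decide +kernel
theorem ck609 : checkRange tbl 12182 20 = 0 := by decide +kernel
theorem ck610 : checkRange tbl 12202 17 = 0 := by decide +kernel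
theorem ck611 : checkRange tbl 12219 16 = 0 := by decide +kernel
theorem ck612 : checkRange tbl 12235 17 = 0 := by decide +kernel
theorem ck613 : checkRange tbl 12252 17 = 0 := by decide +kernel
theorem ck614 : checkRange tbl 12269 18 = 0 := by decide +kernel
theorem ck615 : checkRange tbl 12287 16 = 0 := by decide +kernel
theorem ck616 : checkRange tbl 12303 15 = 0 := by decide +kernel
theorem ck617 : checkRange tbl 12318 15 = 0 := by decide +kernel
theorem ck618 : checkRange tbl 12333 16 = 0 := by decide +kernel
theorem ck619 : checkRange tbl 12349 17 = 0 := by decide +kernel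
theorem ck620 : checkRange tbl 12366 14 = 0 := by decide +kernel
theorem ck621 : checkRange tbl 12380 16 = 0 := by decide +kernel
theorem ck622 : checkRange tbl 12396 17 = 0 := by decide +kernel
theorem ck623 : checkRange tbl 12413 16 = 0 := by decide +kernel
theorem ck624 : checkRange tbl 12429 18 = 0 := by decide +kernel
theorem ck625 : checkRange tbl 12447 16 = 0 := by decide +kernel
theorem ck626 : checkRange tbl 12463 16 = 0 := by decide +kernel
theorem ck627 : checkRange tbl 12479 15 = 0 := by decide +kernel
theorem ck628 : checkRange tbl 12494 14 = 0 := by decide +kernel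
theorem ck629 : checkRange tbl 12508 17 = 0 := by decide +kernel
theorem ck630 : checkRange tbl 12525 17 = 0 := by decide +kernel
theorem ck631 : checkRange tbl 12542 15 = 0 := by decide +kernel
theorem ck632 : checkRange tbl 12557 16 = 0 := by decide +kernel
theorem ck633 : checkRange tbl 12573 18 = 0 := by decide +kernel
theorem ck634 : checkRange tbl 12591 17 = 0 := by decide +kernel
theorem ck635 : checkRange tbl 12608 18 = 0 := by decide +kernel
theorem ck636 : checkRange tbl 12626 17 = 0 := by decide +kernel
theorem ck637 : checkRange tbl 12643 19 = 0 := by decide +kernel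
theorem ck638 : checkRange tbl 12662 16 = 0 := by decide +kernel
theorem ck639 : checkRange tbl 12678 15 = 0 := by decide +kernel

theorem rng9 : RangeOK tbl 11316 1377 := RangeOK.join (RangeOK.join (RangeOK.join (RangeOK.join (RangeOK.join (RangeOK.join (RangeOK.of_check ck576) (RangeOK.of_check ck577) (Eq.refl 11342)) (RangeOK.join (RangeOK.of_check ck578) (RangeOK.of_check ck579) (Eq.refl 11387)) (Eq.refl 11363)) (RangeOK.join (RangeOK.join (RangeOK.of_check ck580) (RangeOK.of_check ck581) (Eq.refl 11443)) (RangeOK.join (RangeOK.of_check ck582) (RangeOK.of_check ck583) (Eq.refl 11499)) (Eq.refl 11471)) (Eq.refl 11415)) (RangeOK.join (RangeOK.join (RangeOK.join (RangeOK.of_check ck584) (RangeOK.of_check ck585) (Eq.refl 11549)) (RangeOK.join (RangeOK.of_check ck586) (RangeOK.of_check ck587) (Eq.refl 11599)) (Eq.refl 11569)) (RangeOK.join (RangeOK.join (RangeOK.of_check ck588) (RangeOK.of_check ck589) (Eq.refl 11657)) (RangeOK.join (RangeOK.of_check ck590) (RangeOK.of_check ck591) (Eq.refl 11708)) (Eq.refl 11679)) (Eq.refl 11629)) (Eq.refl 11523)) (RangeOK.join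 (RangeOK.join (RangeOK.join (RangeOK.join (RangeOK.of_check ck592) (RangeOK.of_check ck593) (Eq.refl 11760)) (RangeOK.join (RangeOK.of_check ck594) (RangeOK.of_check ck595) (Eq.refl 11815)) (Eq.refl 11788)) (RangeOK.join (RangeOK.join (RangeOK.of_check ck596) (RangeOK.of_check ck597) (Eq.refl 11865)) (RangeOK.join (RangeOK.of_check ck598) (RangeOK.of_check ck599) (Eq.refl 11907)) (Eq.refl 11891)) (Eq.refl 11841)) (RangeOK.join (RangeOK.join (RangeOK.join (RangeOK.of_check ck600) (RangeOK.of_check ck601) (Eq.refl 11965)) (RangeOK.join (RangeOK.of_check ck602) (RangeOK.of_check ck603) (Eq.refl 12023)) (Eq.refl 11995)) (RangeOK.join (RangeOK.join (RangeOK.of_check ck604) (RangeOK.of_check ck605) (Eq.refl 12083)) (RangeOK.join (RangeOK.of_check ck606) (RangeOK.of_check ck607) (Eq.refl 12133)) (Eq.refl 12104)) (Eq.refl 12053)) (Eq.refl 11935)) (Eq.refl 11734)) (RangeOK.join (RangeOK.join (RangeOK.join (RangeOK.join (RangeOK.join (RangeOK.of_check ck608) (RangeOK.of_check ck609) (Eq.refl 12182)) (RangeOK.join (RangeOK.of_check ck610) (RangeOK.of_check ck611)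 (Eq.refl 12219)) (Eq.refl 12202)) (RangeOK.join (RangeOK.join (RangeOK.of_check ck612) (RangeOK.of_check ck613) (Eq.refl 12252)) (RangeOK.join (RangeOK.of_check ck614) (RangeOK.of_check ck615) (Eq.refl 12287)) (Eq.refl 12269)) (Eq.refl 12235)) (RangeOK.join (RangeOK.join (RangeOK.join (RangeOK.of_check ck616) (RangeOK.of_check ck617) (Eq.refl 12318)) (RangeOK.join (RangeOK.of_check ck618) (RangeOK.of_check ck619) (Eq.refl 12349)) (Eq.refl 12333)) (RangeOK.join (RangeOK.join (RangeOK.of_check ck620) (RangeOK.of_check ck621) (Eq.refl 12380)) (RangeOK.join (RangeOK.of_check ck622) (RangeOK.of_check ck623) (Eq.refl 12413)) (Eq.refl 12396)) (Eq.refl 12366)) (Eq.refl 12303)) (RangeOK.join (RangeOK.join (RangeOK.join (RangeOK.join (RangeOK.of_check ck624) (RangeOK.of_check ck625) (Eq.refl 12447)) (RangeOK.join (RangeOK.of_check ck626) (RangeOK.of_check ck627) (Eq.refl 12479)) (Eq.refl 12463)) (RangeOK.join (RangeOK.join (RangeOK.of_check ck628) (RangeOK.of_check ck629) (Eq.refl 12508)) (RangeOK.join (RangeOK.of_check ck630) (RangeOK.of_check ck631) (Eq.refl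 12542)) (Eq.refl 12525)) (Eq.refl 12494)) (RangeOK.join (RangeOK.join (RangeOK.join (RangeOK.of_check ck632) (RangeOK.of_check ck633) (Eq.refl 12573)) (RangeOK.join (RangeOK.of_check ck634) (RangeOK.of_check ck635) (Eq.refl 12608)) (Eq.refl 12591)) (RangeOK.join (RangeOK.join (RangeOK.of_check ck636) (RangeOK.of_check ck637) (Eq.refl 12643)) (RangeOK.join (RangeOK.of_check ck638) (RangeOK.of_check ck639) (Eq.refl 12678)) (Eq.refl 12662)) (Eq.refl 12626)) (Eq.refl 12557)) (Eq.refl 12429)) (Eq.refl 12161)

end Vale.Agent.Snaky.P3
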